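import Crest.Agent.N250.T.Stm

/-!
# Row 250 (helper10): the static minimal core, statements
-/

set_option autoImplicit false
open MeasureTheory Set Filter Topology Metric
open scoped ContDiff InnerProductSpace
open Crest.GeometryTopology.MCF

noncomputable section

namespace Crest.Agent.N250.Min

/-- static minimal surface with area ratios at most `Λ` (no properness) -/
structure SM (S : Mv) (Λ : ℝ) : Prop where
  reg : S.Reg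
  st : S.Static
  min : ∀ p ∈ S.M, S.H p = 0
  ar : S.AR Λ

/-- Choi–Schoen -/
def CSS : Prop := ∀ Λ e : ℝ, 0 < e → ∃ κ : ℝ, 0 < κ ∧ ∀ (F : Mv) (t : ℝ) (y : E) (r : ℝ), 0 < r →
  F.IsMCF → F.Static → F.AR Λ → F.Proper (ball y r ×ˢ univ) →
  ∫⁻ x in ball y r, ENNReal.ofReal (F.A2 (x, t)) ∂F.mu t ≤ ENNReal.ofReal κ →
  ∀ x ∈ F.sl t, dist x y < r / 2 → F.A2 (x, t) ≤ e / r ^ 2

/-- punctures have density at most one -/
def AtomS : Prop := ∀ (S : Mv) (Λ : ℝ) (p : E) (r₀ : ℝ), SM S Λ → 0 < r₀ →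
  S.Proper ((ball p r₀ \ {p}) ×ˢ univ) →
  ∫⁻ x in ball p r₀, ENNReal.ofReal (S.A2 (x, 0)) ∂S.mu 0 ≠ ⊤ →
  ∀ ε, 0 < ε → ∀ᶠ R in 𝓝[>] (0 : ℝ), S.Fs 0 p (R ^ 2) ≤ 1 + ε

/-- polynomially separated ends have density at most one at infinity (the reach is only needed at
the points where the surface crosses the sphere transversally) -/
def InfS : Prop := ∀ (S : Mv) (Λ : ℝ) (p : E) (r₀ c γ : ℝ), SM S Λ → 0 < c → 0 < γ →
  S.Proper ((closedBall p r₀)ᶜ ×ˢ univ) →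
  ∫⁻ x in (closedBall p r₀)ᶜ, ENNReal.ofReal (S.A2 (x, 0)) ∂S.mu 0 ≠ ⊤ →
  (∃ᶠ ρ in atTop, ∀ x ∈ S.sl 0, dist x p = ρ → S.PL (x, 0) (x - p) ≠ 0 →
    S.Reach (x, 0) (c * ρ ^ γ)) →
  ∀ ε, 0 < ε → ∀ᶠ R in atTop, S.Fs 0 p (R ^ 2) ≤ 1 + ε

/-- `(x, y)` is a critical pair of the slice `t` -/
def Crit (F : Mv) (t : ℝ) (x y : E) : Prop :=
  x ∈ F.sl t ∧ y ∈ F.sl t ∧ y ≠ x ∧ F.PL (y, t) (x - y) = 0

/-- no critical pairs and small curvature give two-sided balls -/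
def CRS : Prop := ∀ (F : Mv) (t : ℝ) (y : E) (r κ ρ : ℝ), F.Reg → y ∈ F.sl t →
  F.Proper (closedBall y (2 * r) ×ˢ {t}) → 0 < ρ → 2 * ρ ≤ r → 0 ≤ κ → κ * ρ ≤ 1 →
  (∀ z ∈ F.sl t, dist z y ≤ 2 * r → F.A2 (z, t) ≤ κ ^ 2) →
  (∀ x z, dist x y < r → Crit F t x z → dist x y < dist x z) → F.Reach (y, t) ρ

/-- transversal points of a sphere are limits of points on nearby spheres -/
def SphS : Prop := ∀ (α : Type) (l : Filter α) (Fk : α → Mv) (F : Mv) (Ω : Set ST),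
  Conv l Fk F Ω → ∀ (x p : E) (t : ℝ) (tk ρk : α → ℝ), (x, t) ∈ Ω → (x, t) ∈ F.M →
  F.PL (x, t) (x - p) ≠ 0 → Tendsto tk l (𝓝 t) → Tendsto ρk l (𝓝 (dist x p)) →
  ∃ xk : α → E, Tendsto xk l (𝓝 x) ∧ ∀ᶠ k in l, (xk k, tk k) ∈ (Fk k).M ∧ dist (xk k) p = ρk k

end Crest.Agent.N250.Min

end
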