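import Crest.Agent.N250.Min.Crv

/-!
# Row 250 (helper10): the static two-point inequality, persistence of nearest points
-/

set_option autoImplicit false
open MeasureTheory Set Filter Topology Metric
open scoped ContDiff InnerProductSpace
open Crest.GeometryTopology.MCF

noncomputable section

namespace Crest.Agent.N250.Min

open MP (Aq)

variable {F : Mv} {t : ℝ} {x y : E}

/-- `e` is a Parseval frame of `n^⊥` -/
def Fr (n : E) (e : Fin 3 → E) : Prop :=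
  (∀ a, ⟪n, e a⟫_ℝ = 0) ∧ ∀ v w : E, ∑ a, ⟪v, e a⟫_ℝ * ⟪w, e a⟫_ℝ = ⟪v, w⟫_ℝ - ⟪v, n⟫_ℝ * ⟪w, n⟫_ℝ

theorem frame {n m : E} (hn : ⟪n, n⟫_ℝ = 1) (hm : ⟪m, m⟫_ℝ = 1) (hc : 0 ≤ ⟪n, m⟫_ℝ) :
    ∃ e f : Fin 3 → E, Fr n e ∧ Fr m f ∧ ∑ a, ‖e a - f a‖ ^ 2 = 2 * (1 - ⟪n, m⟫_ℝ) := by
  set c := ⟪n, m⟫_ℝ with hcd
  obtain ⟨k, hk⟩ : ∃ k, k * (1 + c) = 1 := ⟨(1 + c)⁻¹, inv_mul_cancel₀ (by linarith)⟩
  have hc' : ⟪m, n⟫_ℝ = c := real_inner_comm _ _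
  have key : ∀ κ : ℝ, ∀ v w : E, ∑ a, ⟪v, ee a - n a • n - (κ * (m a - c * n a)) • (n + m)⟫_ℝ *
      ⟪w, ee a - n a • n - (κ * (m a - c * n a)) • (n + m)⟫_ℝ =
      ⟪v - ⟪v, n⟫_ℝ • n - (κ * ⟪v, n + m⟫_ℝ) • (m - c • n),
        w - ⟪w, n⟫_ℝ • n - (κ * ⟪w, n + m⟫_ℝ) • (m - c • n)⟫_ℝ := fun κ v w => by
    rw [inner_eq_sum (v - _ - _)]
    refine Finset.sum_congr rfl fun a _ => ?_
    simp only [inner_sub_right, real_inner_smul_right, inner_ee, PiLp.sub_apply, PiLp.smul_apply,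
      smul_eq_mul]
    ring
  refine ⟨fun a => ee a - n a • n - (0 * (m a - c * n a)) • (n + m),
    fun a => ee a - n a • n - (k * (m a - c * n a)) • (n + m), ⟨fun a => ?_, fun v w => ?_⟩,
    ⟨fun a => ?_, fun v w => ?_⟩, ?_⟩
  · simp only [inner_sub_right, real_inner_smul_right, inner_ee, hn]; ring
  · rw [key]
    simp only [zero_mul, zero_smul, sub_zero, inner_sub_left, inner_sub_right,
      real_inner_smul_left, real_inner_smul_right, hn, real_inner_comm w n]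
    ring
  · simp only [inner_sub_right, real_inner_smul_right, inner_ee, inner_add_right, hm, hc']
    linear_combination (-(m a - c * n a)) * hk
  · rw [key]
    simp only [inner_sub_left, inner_sub_right, inner_add_right,
      real_inner_smul_left, real_inner_smul_right, hn, hm, hc', ← hcd, real_inner_comm w n,
      real_inner_comm w m]
    linear_combination (-(⟪v, n⟫_ℝ + ⟪v, m⟫_ℝ) * (⟪w, n⟫_ℝ + ⟪w, m⟫_ℝ) +
      ⟪v, n⟫_ℝ * (⟪w, n⟫_ℝ + ⟪w, m⟫_ℝ) + (⟪v, n⟫_ℝ + ⟪v, m⟫_ℝ) * ⟪w, n⟫_ℝ +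
      k * (1 - c) * (⟪v, n⟫_ℝ + ⟪v, m⟫_ℝ) * (⟪w, n⟫_ℝ + ⟪w, m⟫_ℝ)) * hk
  · have h1 : ‖n + m‖ ^ 2 = 2 + 2 * c := by
      rw [norm_add_sq_real, ← real_inner_self_eq_norm_sq, ← real_inner_self_eq_norm_sq, hn, hm]
      ring
    have h2 : ∀ a, ‖(ee a - n a • n - (0 * (m a - c * n a)) • (n + m)) -
        (ee a - n a • n - (k * (m a - c * n a)) • (n + m))‖ ^ 2 =
        k ^ 2 * (2 + 2 * c) * (m a - c * n a) ^ 2 := fun a => by
      rw [zero_mul, zero_smul, sub_zero, sub_sub_cancel, norm_smul, mul_pow, h1, Real.norm_eq_abs,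
        sq_abs]; ring
    simp only [h2, ← Finset.mul_sum]
    rw [inner_eq_sum] at hn hm hcd
    simp only [Fin.sum_univ_three] at hn hm hcd ⊢
    have h3 : (m 0 - c * n 0) ^ 2 + (m 1 - c * n 1) ^ 2 + (m 2 - c * n 2) ^ 2 = 1 - c ^ 2 := by
      linear_combination hm + c ^ 2 * hn + 2 * c * hcd
    rw [h3]
    linear_combination (2 * (1 - c) * (k * (1 + c) + 1)) * hk

theorem Fr.neg {n : E} {e : Fin 3 → E} (h : Fr (-n) e) : Fr n e :=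
  ⟨fun a => by simpa using h.1 a, fun v w => by simpa using h.2 v w⟩

theorem Fr.norm {n : E} {e : Fin 3 → E} (h : Fr n e) (hn : ⟪n, n⟫_ℝ = 1) :
    ∑ a, ‖e a‖ ^ 2 = 2 := by
  have h1 : ∀ i, ∑ a, e a i * e a i = 1 - n i * n i := fun i => by
    have := h.2 (ee i) (ee i)
    simp only [real_inner_comm _ (ee i), inner_ee] at this
    simpa using this
  simp only [← real_inner_self_eq_norm_sq, inner_eq_sum] at hn ⊢
  rw [Finset.sum_comm]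
  simp only [h1, Fin.sum_univ_three] at hn ⊢
  linarith

theorem Fr.trace (hF : F.Reg) {p : ST} (hp : p ∈ F.M) {e : Fin 3 → E} (h : Fr (F.n p) e) :
    ∑ a, Aq F p (e a) (e a) = F.H p := by
  have h1 : ∀ i j, ∑ a, e a i * e a j = ee j i - F.n p i * F.n p j := fun i j => by
    have := h.2 (ee i) (ee j)
    simpa only [real_inner_comm _ (ee i), real_inner_comm (F.n p) (ee j),
      real_inner_comm (e _) (ee j), inner_ee] using this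
  have h2 := MP.Aq_n hF hp (F.n p)
  simp only [Aq] at h2 ⊢
  rw [Finset.sum_comm]
  simp only [Finset.sum_comm (s := (Finset.univ : Finset (Fin 3)))
    (f := fun a j => F.A _ j p * (e a _ * e a j)), ← Finset.mul_sum, h1]
  simp only [Mv.H, Finset.sum_apply, Fin.sum_univ_three, ee, PiLp.single_apply] at h2 ⊢
  simp
  linarith

theorem pair (hF : F.Reg) (hx : x ∈ F.sl t) (hy : y ∈ F.sl t) {p : E} {Θ Θ' : ℝ → ℝ} {Θ'' : ℝ}
    (h1 : ∀ᶠ u in 𝓝 (‖x - p‖ ^ 2), HasDerivAt Θ (Θ' u) u) (h2 : HasDerivAt Θ' Θ'' (‖x - p‖ ^ 2))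
    (h0 : Θ (‖x - p‖ ^ 2) = ‖x - y‖ ^ 2)
    (hm : ∀ᶠ q in 𝓝 (x, y), q.1 ∈ F.sl t → q.2 ∈ F.sl t → Θ (‖q.1 - p‖ ^ 2) ≤ ‖q.1 - q.2‖ ^ 2)
    {e f : E} (he : ⟪F.n (x, t), e⟫_ℝ = 0) (hf : ⟪F.n (y, t), f⟫_ℝ = 0) :
    Θ' (‖x - p‖ ^ 2) * ⟪x - p, e⟫_ℝ = ⟪x - y, e - f⟫_ℝ ∧
    2 * Θ'' * (⟪x - p, e⟫_ℝ * ⟪x - p, e⟫_ℝ) + Θ' (‖x - p‖ ^ 2) *
      (‖e‖ ^ 2 - Aq F (x, t) e e * ⟪x - p, F.n (x, t)⟫_ℝ) ≤
      ‖e - f‖ ^ 2 - Aq F (x, t) e e * ⟪x - y, F.n (x, t)⟫_ℝ +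
        Aq F (y, t) f f * ⟪x - y, F.n (y, t)⟫_ℝ := by
  obtain ⟨α, α', a0, a1, hα, a2, -⟩ := curve hF hx he
  obtain ⟨β, β', b0, b1, hβ, b2, -⟩ := curve hF hy hf
  have dα : HasDerivAt α e 0 := by have := hα.self_of_nhds.2; rwa [a1] at this
  have dβ : HasDerivAt β f 0 := by have := hβ.self_of_nhds.2; rwa [b1] at this
  have du : HasDerivAt (fun s => ‖α s - p‖ ^ 2) (2 * ⟪x - p, e⟫_ℝ) 0 := by
    have := (dα.sub_const p).norm_sq; rwa [a0] at this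
  have tu : Tendsto (fun s => ‖α s - p‖ ^ 2) (𝓝 0) (𝓝 (‖x - p‖ ^ 2)) := by
    have := du.continuousAt.tendsto; rwa [a0] at this
  have tq : Tendsto (fun s => (α s, β s)) (𝓝 0) (𝓝 (x, y)) := by
    have := (dα.prodMk dβ).continuousAt.tendsto; rwa [a0, b0] at this
  have hM : IsLocalMax (fun s => Θ (‖α s - p‖ ^ 2) - ‖α s - β s‖ ^ 2) 0 := by
    filter_upwards [tq.eventually hm, hα, hβ] with s k1 k2 k3
    have := k1 k2.1 k3.1
    simp only [a0, b0, h0] at this ⊢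
    linarith
  have d1 : ∀ᶠ s in 𝓝 (0 : ℝ), HasDerivAt (fun s => Θ (‖α s - p‖ ^ 2) - ‖α s - β s‖ ^ 2)
      (Θ' (‖α s - p‖ ^ 2) * (2 * ⟪α s - p, α' s⟫_ℝ) - 2 * ⟪α s - β s, α' s - β' s⟫_ℝ) s := by
    filter_upwards [tu.eventually h1, hα, hβ] with s k1 k2 k3
    exact (k1.comp s (k2.2.sub_const p).norm_sq).sub (k2.2.sub k3.2).norm_sq
  have h2' : HasDerivAt Θ' Θ'' ((fun s => ‖α s - p‖ ^ 2) 0) := by simpa only [a0] using h2
  have d2 := ((h2'.comp 0 du).mul (((dα.sub_const p).inner ℝ a2).const_mul 2)).sub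
    (((dα.sub dβ).inner ℝ (a2.sub b2)).const_mul 2)
  have k1 := hM.hasDerivAt_eq_zero d1.self_of_nhds
  have k2 := MP.second_nonpos hM d1 d2
  simp only [a0, b0, a1, b1, Function.comp_apply, Pi.sub_apply, inner_sub_right (x - y) (_ • _),
    real_inner_smul_right, real_inner_self_eq_norm_sq] at k1 k2
  constructor <;> linarith

theorem norm_PL_sq (hF : F.Reg) {p : ST} (hp : p ∈ F.M) (v : E) :
    ‖F.PL p v‖ ^ 2 = ‖v‖ ^ 2 - ⟪v, F.n p⟫_ℝ ^ 2 := by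
  rw [← inner_PL_self hF hp, Mv.PL, inner_sub_right, real_inner_smul_right,
    real_inner_self_eq_norm_sq, real_inner_comm v]; ring

/-- the two-point inequality for minimal slices -/
theorem two_pt (hF : F.Reg) (hc : Crit F t x y) (Hx : F.H (x, t) = 0) (Hy : F.H (y, t) = 0)
    {p : E} {Θ Θ' : ℝ → ℝ} {Θ'' : ℝ}
    (h1 : ∀ᶠ u in 𝓝 (‖x - p‖ ^ 2), HasDerivAt Θ (Θ' u) u) (h2 : HasDerivAt Θ' Θ'' (‖x - p‖ ^ 2))
    (h0 : Θ (‖x - p‖ ^ 2) = ‖x - y‖ ^ 2)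
    (hm : ∀ᶠ q in 𝓝 (x, y), q.1 ∈ F.sl t → q.2 ∈ F.sl t → Θ (‖q.1 - p‖ ^ 2) ≤ ‖q.1 - q.2‖ ^ 2) :
    ∃ C τ : ℝ, 0 ≤ C ∧ 0 ≤ τ ∧ τ ≤ ‖x - p‖ ^ 2 ∧
      ‖x - y‖ ^ 2 * (1 - C ^ 2) = Θ' (‖x - p‖ ^ 2) ^ 2 * τ ∧
      Θ'' * τ + Θ' (‖x - p‖ ^ 2) ≤ 1 - C := by
  obtain ⟨hx, hy, -, hP⟩ := hc
  have n1 := hF.inner_n (p := (x, t)) hx
  have n2 := hF.inner_n (p := (y, t)) hy
  obtain ⟨e, f, he, hf, hs⟩ : ∃ e f : Fin 3 → E, Fr (F.n (x, t)) e ∧ Fr (F.n (y, t)) f ∧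
      ∑ a, ‖e a - f a‖ ^ 2 = 2 * (1 - |⟪F.n (x, t), F.n (y, t)⟫_ℝ|) := by
    rcases le_total 0 ⟪F.n (x, t), F.n (y, t)⟫_ℝ with h | h
    · rw [abs_of_nonneg h]; exact frame n1 n2 h
    · obtain ⟨e, f, k1, k2, k3⟩ := frame (m := -F.n (y, t)) n1 (by simpa using n2) (by simpa using h)
      exact ⟨e, f, k1, k2.neg, by rw [k3, abs_of_nonpos h, inner_neg_right]⟩
  refine ⟨|⟪F.n (x, t), F.n (y, t)⟫_ℝ|, ‖x - p‖ ^ 2 - ⟪x - p, F.n (x, t)⟫_ℝ ^ 2, abs_nonneg _,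
    by rw [← norm_PL_sq hF (p := (x, t)) hx]; positivity, by nlinarith, ?_, ?_⟩
  · have k : ∀ a, ⟪x - y, e a⟫_ℝ * ⟪x - y, e a⟫_ℝ =
        Θ' (‖x - p‖ ^ 2) ^ 2 * (⟪x - p, e a⟫_ℝ * ⟪x - p, e a⟫_ℝ) := fun a => by
      have := (pair hF hx hy h1 h2 h0 hm (he.1 a) (f := 0) (inner_zero_right _)).1
      rw [sub_zero] at this
      rw [← this]; ring
    have k1 := he.2 (x - y) (x - y)
    simp only [k, ← Finset.mul_sum, he.2, real_inner_self_eq_norm_sq] at k1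
    have k2 : x - y = ⟪F.n (y, t), x - y⟫_ℝ • F.n (y, t) := sub_eq_zero.1 hP
    have k3 := norm_PL_sq hF (p := (y, t)) hy (x - y)
    have k4 : ⟪x - y, F.n (x, t)⟫_ℝ = ⟪x - y, F.n (y, t)⟫_ℝ * ⟪F.n (x, t), F.n (y, t)⟫_ℝ := by
      conv_lhs => rw [k2]
      rw [real_inner_smul_left, real_inner_comm (x - y), real_inner_comm (F.n (x, t))]
    rw [hP, norm_zero] at k3
    rw [sq_abs]
    rw [k4] at k1
    linear_combination -k1 + ⟪F.n (x, t), F.n (y, t)⟫_ℝ ^ 2 * k3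
  · have k := Finset.sum_le_sum fun a (_ : a ∈ Finset.univ) =>
      (pair hF hx hy h1 h2 h0 hm (he.1 a) (hf.1 a)).2
    simp only [Finset.sum_add_distrib, Finset.sum_sub_distrib, ← Finset.mul_sum, ← Finset.sum_mul,
      he.2, he.norm n1, he.trace hF (p := (x, t)) hx, hf.trace hF (p := (y, t)) hy, Hx, Hy, hs,
      real_inner_self_eq_norm_sq] at k
    linarith

/-- no critical pairs near the diagonal -/
theorem no_crit (hF : F.Reg) (hx : x ∈ F.sl t) : ∀ᶠ q in 𝓝 (x, x), ¬Crit F t q.1 q.2 := by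
  obtain ⟨W, φ, h1, h2⟩ := hF (x, t) hx
  obtain ⟨G, hG⟩ : ∃ G, G = ‖gradX φ x t‖ := ⟨_, rfl⟩
  have G0 : 0 < G := by rw [hG]; exact h2.norm_pos (q := (x, t)) h1
  have d : ∀ᶠ q : ST × ST in 𝓝 ((x, t), (x, t)),
      ‖φ q.1 - φ q.2 - fderiv ℝ φ (x, t) (q.1 - q.2)‖ ≤ G / 2 * ‖q.1 - q.2‖ :=
    ((h2.contDiffAt h1).hasStrictFDerivAt (by simp)).isLittleO.bound (half_pos G0)
  have t1 : Tendsto (fun q : E × E => (((q.1, t), (q.2, t)) : ST × ST)) (𝓝 (x, x))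
      (𝓝 ((x, t), (x, t))) := Continuous.tendsto' (by fun_prop) _ _ rfl
  have hW : ∀ᶠ y in 𝓝 x, (y, t) ∈ W :=
    (by fun_prop : Continuous fun y : E => ((y, t) : ST)).continuousAt.preimage_mem_nhds
      (h2.isOpen.mem_nhds h1)
  have hn : ∀ᶠ y in 𝓝 x, y ∈ F.sl t → 1 / 2 < ⟪F.n (x, t), F.n (y, t)⟫_ℝ := by
    have : ContinuousWithinAt (fun y => ⟪F.n (x, t), F.n (y, t)⟫_ℝ) (F.sl t) x :=
      ContinuousWithinAt.inner (𝕜 := ℝ) continuousWithinAt_const (cont_n hF x hx)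
    exact eventually_nhdsWithin_iff.1
      (this.eventually_const_lt (by simp only [hF.inner_n (p := (x, t)) hx]; norm_num))
  have f1 : Tendsto (fun q : E × E => q.1) (𝓝 (x, x)) (𝓝 x) := continuous_fst.tendsto _
  have f2 : Tendsto (fun q : E × E => q.2) (𝓝 (x, x)) (𝓝 x) := continuous_snd.tendsto _
  filter_upwards [t1.eventually d, f1.eventually hW, f2.eventually hW, f2.eventually hn]
    with q k1 k2 k3 k4 hq
  obtain ⟨u, v⟩ := q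
  obtain ⟨c1, c2, c3, c4⟩ : u ∈ F.sl t ∧ v ∈ F.sl t ∧ v ≠ u ∧ F.PL (v, t) (u - v) = 0 := hq
  dsimp only at k1 k2 k3 k4
  have e1 : φ (u, t) = 0 := (h2.mem _ k2).1 c1
  have e2 : φ (v, t) = 0 := (h2.mem _ k3).1 c2
  have e3 : (((u, t) : ST) - (v, t)) = (u - v, 0) := by simp
  have e4 : ‖((u - v, 0) : ST)‖ = ‖u - v‖ := by simp [Prod.norm_mk]
  have e5 : fderiv ℝ φ (x, t) (u - v, 0) = G * ⟪F.n (x, t), u - v⟫_ℝ := by
    rw [h2.fderiv_eq h1 hx]; simp only [mul_zero, sub_zero, hG]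
  rw [e1, e2, e3, e4, e5] at k1
  have k5 : u - v = ⟪F.n (v, t), u - v⟫_ℝ • F.n (v, t) := sub_eq_zero.1 c4
  generalize ⟪F.n (v, t), u - v⟫_ℝ = a at k5
  have k6 : ‖u - v‖ = |a| := by
    rw [k5, norm_smul, hF.norm_n (p := (v, t)) c2, mul_one, Real.norm_eq_abs]
  have a0 : 0 < |a| := by rw [← k6]; exact norm_pos_iff.2 (sub_ne_zero.2 c3.symm)
  have k7 := k4 c2
  rw [k6, k5, real_inner_smul_right, sub_zero, zero_sub, norm_neg, Real.norm_eq_abs, abs_mul,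
    abs_mul, abs_of_pos G0, abs_of_pos (lt_trans (by norm_num) k7)] at k1
  nlinarith [mul_pos G0 a0]

/-- strict local minima of the distance from a point on the normal line -/
theorem slm (hF : F.Reg) (hy : y ∈ F.sl t) {κ δ : ℝ} (hκ : 0 ≤ κ) (hδ : 0 < δ)
    (hK : IsCompact (F.sl t ∩ closedBall y δ))
    (hA : ∀ z ∈ F.sl t ∩ closedBall y δ, F.A2 (z, t) ≤ κ ^ 2) {o : E}
    (ho : F.PL (y, t) (o - y) = 0) : ∀ᶠ z in 𝓝 y, z ∈ F.sl t →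
      ‖o - y‖ ^ 2 + (1 - κ * ‖o - y‖) * ‖z - y‖ ^ 2 ≤ ‖o - z‖ ^ 2 := by
  obtain ⟨ε, ε0, hε⟩ := Metric.eventually_nhds_iff.1 (no_crit hF hy)
  filter_upwards [ball_mem_nhds y (lt_min (half_pos ε0) (half_pos hδ))] with z hz hzM
  rw [mem_ball, lt_min_iff] at hz
  have hs : closedBall z (dist z y) ⊆ closedBall y δ := closedBall_subset_closedBall' (by linarith)
  have h1 := cr0 (x := z) (y := y) (r := dist z y) hF hκ
    (hK.of_isClosed_subset (by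
      have : F.sl t ∩ closedBall z (dist z y) = (F.sl t ∩ closedBall y δ) ∩ closedBall z (dist z y) :=
        Set.ext fun w => ⟨fun h => ⟨⟨h.1, hs h.2⟩, h.2⟩, fun h => ⟨h.1.1, h.2⟩⟩
      rw [this]; exact hK.isClosed.inter isClosed_closedBall) (inter_subset_inter_right _ hs))
    (fun w hw => hA w ⟨hw.1, hs hw.2⟩)
    (fun w hw wz h0 => hε (y := (z, w)) (by
      have := dist_triangle w z y
      have h2 : dist w z ≤ dist z y := hw.2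
      rw [Prod.dist_eq, max_lt_iff]; constructor <;> simp only <;> linarith) ⟨hzM, hw.1, wz, h0⟩)
    ⟨hy, by rw [mem_closedBall, dist_comm]⟩
  have k5 : o - y = ⟪F.n (y, t), o - y⟫_ℝ • F.n (y, t) := sub_eq_zero.1 ho
  set a := ⟪F.n (y, t), o - y⟫_ℝ
  have k6 : ‖o - y‖ = |a| := by
    rw [k5, norm_smul, hF.norm_n (p := (y, t)) hy, mul_one, Real.norm_eq_abs]
  have k7 : ⟪o - y, z - y⟫_ℝ ≤ ‖o - y‖ * (κ / 2 * ‖z - y‖ ^ 2) := by
    rw [k6, k5, real_inner_smul_left, real_inner_comm]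
    exact (le_abs_self _).trans (by rw [abs_mul]; gcongr)
  rw [show o - z = (o - y) - (z - y) by abel, norm_sub_sq_real (o - y)]
  linarith

/-- nondegenerate nearest points persist -/
theorem persist (hF : F.Reg) (hc : Crit F t x y) {κ δ : ℝ} (hκ : 0 ≤ κ) (hδ : 0 < δ)
    (hK : IsCompact (F.sl t ∩ closedBall y δ))
    (hA : ∀ z ∈ F.sl t ∩ closedBall y δ, F.A2 (z, t) ≤ κ ^ 2) (hd : κ * ‖x - y‖ < 1) :
    ∀ᶠ q in 𝓝 (x, y), q.1 ∈ F.sl t → q.2 ∈ F.sl t →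
      ∃ z, Crit F t q.1 z ∧ ‖q.1 - z‖ ≤ ‖q.1 - q.2‖ := by
  obtain ⟨-, hy, xy, hP⟩ := hc
  obtain ⟨ε, ε0, hε⟩ := Metric.eventually_nhds_iff.1 (slm hF hy hκ hδ hK hA hP)
  have d0 : 0 < dist x y := dist_pos.2 xy.symm
  set θ := 1 - κ * ‖x - y‖ with hθ
  have θ0 : 0 < θ := by linarith
  have θ1 : θ ≤ 1 := by have := mul_nonneg hκ (norm_nonneg (x - y)); linarith
  obtain ⟨r, r0, r1, r2, r3⟩ : ∃ r, 0 < r ∧ r < ε ∧ r ≤ δ ∧ r ≤ dist x y / 2 :=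
    ⟨min (ε / 2) (min δ (dist x y / 2)), by positivity, (min_le_left _ _).trans_lt (by linarith),
      (min_le_right _ _).trans (min_le_left _ _), (min_le_right _ _).trans (min_le_right _ _)⟩
  have hK' : IsCompact ((F.sl t ∩ closedBall y δ) ∩ closedBall y r) :=
    hK.inter_right isClosed_closedBall
  filter_upwards [ball_mem_nhds (x, y) (show 0 < θ * r / 2 by positivity)] with q hq q1 q2
  rw [mem_ball, Prod.dist_eq, max_lt_iff] at hq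
  simp only at hq
  have hr : θ * r / 2 ≤ r / 2 := by nlinarith
  have mem : ∀ w ∈ F.sl t, dist w y ≤ r → w ∈ (F.sl t ∩ closedBall y δ) ∩ closedBall y r :=
    fun w h1 h2 => ⟨⟨h1, h2.trans r2⟩, h2⟩
  obtain ⟨z, hz, hmin⟩ := hK'.exists_isMinOn ⟨y, mem y hy (by simp [r0.le])⟩
    (f := fun z => ‖q.1 - z‖ ^ 2) (by fun_prop)
  have z1 : dist z y ≤ r := hz.2
  have z2 : dist z y < r := by
    have k1 : ‖q.1 - z‖ ^ 2 ≤ ‖q.1 - y‖ ^ 2 := hmin (mem y hy (by simp [r0.le]))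
    have k2 := hε (y := z) (z1.trans_lt r1) hz.1.1
    have k3 := real_inner_le_norm (q.1 - x) (z - y)
    have k4 : ⟪q.1 - y, z - y⟫_ℝ = ⟪x - y, z - y⟫_ℝ + ⟪q.1 - x, z - y⟫_ℝ := by
      rw [← inner_add_left]; congr 1; abel
    rw [show q.1 - z = (q.1 - y) - (z - y) by abel, norm_sub_sq_real (q.1 - y)] at k1
    rw [show x - z = (x - y) - (z - y) by abel, norm_sub_sq_real (x - y)] at k2
    refine lt_of_le_of_ne z1 fun h => ?_
    rw [dist_eq_norm] at h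
    have k5 := hq.1
    rw [dist_eq_norm] at k5
    rw [h] at k1 k2 k3
    nlinarith
  refine ⟨z, ⟨q1, hz.1.1, ?_, ?_⟩, ?_⟩
  · rintro rfl
    have := dist_triangle x q.1 y
    rw [dist_comm x q.1] at this
    linarith
  · set T := F.PL (z, t) (q.1 - z) with hT
    obtain ⟨γ, γ', g0, g1, hγ, -, -⟩ := curve hF hz.1.1 (inner_PL hF (p := (z, t)) hz.1.1 (q.1 - z))
    have d1 : HasDerivAt γ T 0 := by have := hγ.self_of_nhds.2; rwa [g1] at this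
    have d2 := (d1.const_sub q.1).norm_sq
    have hm : IsLocalMin (fun s => ‖q.1 - γ s‖ ^ 2) 0 := by
      have : ∀ᶠ s in 𝓝 (0 : ℝ), γ s ∈ ball y r :=
        d1.continuousAt.preimage_mem_nhds (by rw [g0]; exact isOpen_ball.mem_nhds z2)
      filter_upwards [hγ, this] with s h1 h2
      rw [g0]; exact hmin (mem _ h1.1 (le_of_lt h2))
    have := hm.hasDerivAt_eq_zero d2
    rw [g0, inner_neg_right, inner_PL_self hF (p := (z, t)) hz.1.1] at this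
    exact norm_eq_zero.1 (pow_eq_zero_iff two_ne_zero |>.1 (by linarith))
  · exact (abs_le_of_sq_le_sq' (hmin (mem q.2 q2 (by linarith))) (norm_nonneg _)).2

end Crest.Agent.N250.Min

end
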