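import Crest.Agent.N250.Min.Stm2
import Crest.Agent.N250.Min.Two

/-!
# Row 250 (helper10): the annulus lemma
-/

set_option autoImplicit false
open MeasureTheory Set Filter Topology Metric
open scoped ContDiff InnerProductSpace
open Crest.GeometryTopology.MCF

noncomputable section

namespace Crest.Agent.N250.Min

variable {F : Mv} {t : ℝ} {x y : E}

theorem hasDerivAt_w {R h u : ℝ} (hR : 0 < R) (hu : 0 < u) :
    HasDerivAt (fun u => (u / R ^ 2) ^ h) (h * (u / R ^ 2) ^ h / u) u := by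
  have h0 : u / R ^ 2 ≠ 0 := by positivity
  refine (((hasDerivAt_id u).div_const (R ^ 2)).rpow_const (p := h) (Or.inl h0)).congr_deriv ?_
  simp only [id, Real.rpow_sub_one h0]
  field_simp

theorem rpow_half {r R g : ℝ} (hr : 0 ≤ r) (hR : 0 < R) :
    (r ^ 2 / R ^ 2) ^ (g / 2) = (r / R) ^ g := by
  rw [← div_pow, ← Real.rpow_natCast, ← Real.rpow_mul (by positivity)]
  congr 1; push_cast; ring

theorem one_le_w {r R g : ℝ} (hR : 0 < R) (hr : R ≤ r) (hg : 0 ≤ g) : 1 ≤ (r / R) ^ g :=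
  Real.one_le_rpow ((one_le_div hR).2 hr) hg

theorem w_sq {r R g : ℝ} (hR : 0 < R) (hr : R ≤ r) (hg : g ≤ 1 / 2) :
    ((r / R) ^ g) ^ 2 ≤ r / R := by
  have h1 := (one_le_div hR).2 hr
  rw [← Real.rpow_natCast, ← Real.rpow_mul (by positivity)]
  conv_rhs => rw [← Real.rpow_one (r / R)]
  exact Real.rpow_le_rpow_of_exponent_le h1 (by push_cast; linarith)

theorem beta_le {r R g : ℝ} (hR : 0 < R) (hr : R ≤ r) (hg0 : 0 ≤ g) (hg : g ≤ 1 / 2) :
    R * ((r / R) ^ g - 1) ^ 2 ≤ r := by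
  have h1 := one_le_w hR hr hg0
  have h2 := w_sq hR hr hg
  rw [le_div_iff₀ hR] at h2
  nlinarith

theorem scal {R r h a v τ C : ℝ} (hR : 0 < R) (hx : R < r) (h1 : 0 < h) (h2 : h ≤ 1 / 4)
    (a0 : 0 < a) (a1 : a ≤ R / 8) (w2 : 1 < v) (w3 : v ^ 2 ≤ r / R) (τ0 : 0 ≤ τ) (τ1 : τ ≤ r ^ 2)
    (C0 : 0 ≤ C) (e1 : (a * (v - 1) ^ 2) ^ 2 * (1 - C ^ 2) =
      (a ^ 2 * (4 * (v - 1) ^ 3 * (h * v / r ^ 2))) ^ 2 * τ)
    (e2 : a ^ 2 * (12 * (v - 1) ^ 2 * (h * v / r ^ 2) ^ 2 +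
      4 * (v - 1) ^ 3 * (h * (h - 1) * v / (r ^ 2) ^ 2)) * τ +
      a ^ 2 * (4 * (v - 1) ^ 3 * (h * v / r ^ 2)) ≤ 1 - C) : False := by
  have r0 : 0 < r := hR.trans hx
  have u0 : 0 < r ^ 2 := by positivity
  have e4 : h * (h - 1) * v / (r ^ 2) ^ 2 = (h - 1) * (h * v / r ^ 2) / r ^ 2 := by field_simp
  have k2 : a * (v - 1) * (h * v / r ^ 2) * r = h * (a * ((v - 1) * v)) / r := by field_simp
  have k1 : v ^ 2 * R ≤ r := (le_div_iff₀ hR).1 w3
  have k3 : a * ((v - 1) * v) ≤ r / 8 := by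
    calc a * ((v - 1) * v) ≤ R / 8 * (v * v) := by gcongr; linarith
      _ ≤ r / 8 := by nlinarith
  have e7 : a * (v - 1) * (h * v / r ^ 2) * r ≤ 1 / 32 := by
    rw [k2, div_le_iff₀ r0]
    calc h * (a * ((v - 1) * v)) ≤ 1 / 4 * (r / 8) := by gcongr
      _ = _ := by ring
  have q0 : 0 < h * v / r ^ 2 := div_pos (mul_pos h1 (by linarith)) u0
  have b0 : 0 < v - 1 := by linarith
  rw [e4] at e2
  generalize h * v / r ^ 2 = q at *
  generalize v - 1 = b at *
  have e3 : 1 - C ^ 2 = 16 * (a * b * q) ^ 2 * τ := by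
    have : 0 < a ^ 2 * b ^ 4 := by positivity
    apply mul_left_cancel₀ this.ne'
    linear_combination e1
  have e5 : 0 < (h - 1) * q / r ^ 2 * τ + q := by
    have : τ / r ^ 2 ≤ 1 := (div_le_one u0).2 τ1
    have h3 : (h - 1) * q / r ^ 2 * τ + q = q * (1 - (1 - h) * (τ / r ^ 2)) := by ring
    rw [h3]
    exact mul_pos q0 (by nlinarith)
  have e6 : 3 / 4 * (1 - C ^ 2) < 1 - C := by
    have : 0 < a ^ 2 * (4 * b ^ 3) * ((h - 1) * q / r ^ 2 * τ + q) := by positivity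
    rw [e3]; linarith
  have e8 : 1 - C ^ 2 ≤ 1 / 64 := by
    have k1 : (a * b * q * r) ^ 2 ≤ (1 / 32) ^ 2 := pow_le_pow_left₀ (by positivity) e7 2
    calc 1 - C ^ 2 ≤ 16 * (a * b * q) ^ 2 * r ^ 2 := by rw [e3]; gcongr
      _ ≤ 1 / 64 := by linarith
  have e9 : 0 ≤ 1 - C ^ 2 := by rw [e3]; positivity
  nlinarith

/-- the barrier cannot be touched -/
theorem no_touch (hF : F.Reg) (hc : Crit F t x y) (Hx : F.H (x, t) = 0) (Hy : F.H (y, t) = 0)
    {p : E} {R g a : ℝ} (hR : 0 < R) (hx : R < ‖x - p‖) (g0 : 0 < g) (g1 : g ≤ 1 / 2) (a0 : 0 < a)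
    (a1 : a ≤ R / 8) (h0 : a * ((‖x - p‖ / R) ^ g - 1) ^ 2 = ‖x - y‖)
    (hm : ∀ᶠ q in 𝓝 (x, y), q.1 ∈ F.sl t → q.2 ∈ F.sl t →
      a * ((‖q.1 - p‖ / R) ^ g - 1) ^ 2 ≤ ‖q.1 - q.2‖) : False := by
  set h := g / 2 with hh
  let w : ℝ → ℝ := fun u => (u / R ^ 2) ^ h
  have u0 : 0 < ‖x - p‖ ^ 2 := pow_pos (hR.trans hx) 2
  have hw : ∀ u, 0 < u → HasDerivAt w (h * w u / u) u := fun u hu => hasDerivAt_w hR hu
  have hΘ : ∀ z : E, a ^ 2 * (w (‖z - p‖ ^ 2) - 1) ^ 4 = (a * ((‖z - p‖ / R) ^ g - 1) ^ 2) ^ 2 :=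
    fun z => by simp only [w, hh, rpow_half (norm_nonneg _) hR]; ring
  obtain ⟨C, τ, C0, τ0, τ1, e1, e2⟩ := two_pt hF hc Hx Hy (p := p)
    (Θ := fun u => a ^ 2 * (w u - 1) ^ 4)
    (Θ' := fun u => a ^ 2 * (4 * (w u - 1) ^ 3 * (h * w u / u)))
    (Θ'' := a ^ 2 * (12 * (w (‖x - p‖ ^ 2) - 1) ^ 2 * (h * w (‖x - p‖ ^ 2) / ‖x - p‖ ^ 2) ^ 2 +
      4 * (w (‖x - p‖ ^ 2) - 1) ^ 3 * (h * (h - 1) * w (‖x - p‖ ^ 2) / (‖x - p‖ ^ 2) ^ 2)))
    (by
      filter_upwards [Ioi_mem_nhds u0] with u hu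
      exact ((((hw u hu).sub_const 1).pow 4).const_mul _).congr_deriv (by norm_num))
    (by
      refine ((((((hw _ u0).sub_const 1).pow 3).const_mul 4).mul
        (((hw _ u0).const_mul h).div (hasDerivAt_id _) u0.ne')).const_mul (a ^ 2)).congr_deriv ?_
      simp only [id, Pi.div_apply, Pi.pow_apply]
      have := (hR.trans hx).ne'
      field_simp
      ring)
    (by rw [hΘ, h0])
    (hm.mono fun q hq h1 h2 => by
      rw [hΘ]; exact pow_le_pow_left₀ (by positivity) (hq h1 h2) 2)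
  have w1 : w (‖x - p‖ ^ 2) = (‖x - p‖ / R) ^ g := rpow_half (norm_nonneg _) hR
  have w2 : 1 < (‖x - p‖ / R) ^ g := Real.one_lt_rpow ((one_lt_div hR).2 hx) g0
  have w3 := w_sq hR hx.le g1
  simp only [w1, ← h0] at e1 e2
  exact scal hR hx (half_pos g0) (by linarith) a0 a1 w2 w3 τ0 τ1 C0 e1 e2

theorem anS_holds : AnS := by
  refine ⟨1 / 8, 1 / 8, by norm_num, le_rfl, by norm_num, le_rfl, ?_⟩
  intro F t p R R' g hF hR hRR g0 g1 hP hA hout x₁ y₁ hx1 hx2 hc1
  by_contra hlt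
  push Not at hlt
  let β : E → ℝ := fun x => 1 / 8 * R * ((dist x p / R) ^ g - 1) ^ 2
  have βc : Continuous β := by
    have : Continuous fun x : E => (dist x p / R) ^ g :=
      Continuous.rpow_const (by fun_prop) fun _ => Or.inr g0.le
    fun_prop
  have βle : ∀ x, R ≤ dist x p → β x ≤ dist x p / 8 := fun x h => by
    have := beta_le hR h g0.le g1
    simp only [β]; linarith
  have cp : ∀ K : Set E, IsCompact K → (∀ x ∈ K, R / 2 ≤ dist x p ∧ dist x p ≤ 2 * R') →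
      IsCompact (F.sl t ∩ K) := fun K h1 h2 => cpt hP h1 fun x hx => ⟨h2 x hx, rfl⟩
  have ann : ∀ a b : ℝ, IsCompact {x : E | a ≤ dist x p ∧ dist x p ≤ b} := fun a b =>
    (isCompact_closedBall p b).of_isClosed_subset
      (IsClosed.and (isClosed_le (by fun_prop) (by fun_prop)) (isClosed_le (by fun_prop) (by fun_prop)))
      fun x hx => hx.2
  have hK := cp _ (ann (R / 2) (2 * R')) fun _ h => h
  have hK0 := cp _ (ann R R') fun _ h => ⟨by linarith [h.1], by linarith [h.2]⟩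
  set K := F.sl t ∩ {x : E | R / 2 ≤ dist x p ∧ dist x p ≤ 2 * R'} with hKd
  let K' := closure (F.sl t ∩ {x : E | R ≤ dist x p ∧ dist x p < R'})
  have sub : K' ⊆ F.sl t ∩ {x : E | R ≤ dist x p ∧ dist x p ≤ R'} :=
    closure_minimal (fun x hx => ⟨hx.1, hx.2.1, hx.2.2.le⟩) hK0.isClosed
  have hK' : IsCompact K' := hK0.of_isClosed_subset isClosed_closure sub
  -- local data near a point
  have loc : ∀ (y : E) (r : ℝ), R ≤ r → r ≤ R' → |dist y p - r| ≤ r / 8 →
      IsCompact (F.sl t ∩ closedBall y (r / 4)) ∧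
      ∀ z ∈ F.sl t ∩ closedBall y (r / 4), F.A2 (z, t) ≤ (1 / (4 * r)) ^ 2 := fun y r r1 r2 hy => by
    have h1 : ∀ z ∈ closedBall y (r / 4), r / 2 ≤ dist z p ∧ dist z p ≤ 2 * r := fun z hz => by
      have := abs_dist_sub_le z y p
      rw [mem_closedBall] at hz
      rw [abs_le] at this hy
      constructor <;> linarith
    refine ⟨cp _ (isCompact_closedBall _ _) fun z hz => ⟨by linarith [h1 z hz], by
      linarith [h1 z hz]⟩, fun z hz => ?_⟩
    have h2 := h1 z hz.2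
    refine (hA z hz.1 (by linarith) (by linarith)).2.trans (pow_le_pow_left₀ (by positivity) ?_ 2)
    rw [div_le_div_iff₀ (by linarith) (by linarith)]; linarith
  let C₀ := (K' ×ˢ K ∩ {q : E × E | dist q.1 q.2 ≤ β q.1}) ∩
    (fun q : E × E => F.PL (q.2, t) (q.1 - q.2)) ⁻¹' {0}
  have hC₀ : IsCompact C₀ := by
    have h1 : IsCompact (K' ×ˢ K ∩ {q : E × E | dist q.1 q.2 ≤ β q.1}) :=
      (hK'.prod hK).inter_right (isClosed_le (by fun_prop) (by fun_prop))
    refine h1.of_isClosed_subset (ContinuousOn.preimage_isClosed_of_isClosed ?_ h1.isClosed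
      isClosed_singleton) inter_subset_left
    have h2 : ContinuousOn (fun q : E × E => F.n (q.2, t))
        (K' ×ˢ K ∩ {q : E × E | dist q.1 q.2 ≤ β q.1}) :=
      (cont_n hF).comp continuous_snd.continuousOn fun q hq => hq.1.2.1
    exact (by fun_prop : Continuous fun q : E × E => q.1 - q.2).continuousOn.sub
      ((ContinuousOn.inner (𝕜 := ℝ) h2 (by fun_prop)).smul h2)
  let C := C₀ ∩ {q | q.2 ≠ q.1}
  have crit : ∀ q ∈ C, Crit F t q.1 q.2 := fun q hq =>
    ⟨(sub hq.1.1.1.1).1, hq.1.1.1.2.1, hq.2, hq.1.2⟩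
  have hC : IsCompact C := by
    refine hC₀.of_isClosed_subset (isClosed_of_closure_subset fun q hq => ?_) inter_subset_left
    have h1 : q ∈ C₀ := closure_minimal inter_subset_left hC₀.isClosed hq
    refine ⟨h1, fun h => ?_⟩
    have h2 := no_crit hF h1.1.1.2.1
    rw [show (q.2, q.2) = q from Prod.ext h rfl] at h2
    obtain ⟨q', h3, h4⟩ := mem_closure_iff_nhds.1 hq _ h2
    exact h3 (crit q' h4)
  have mem : ∀ x y, R ≤ dist x p → dist x p < R' → Crit F t x y → dist x y ≤ β x → (x, y) ∈ C :=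
    fun x y h1 h2 h3 h4 => by
      have h5 := βle x h1
      have h6 := abs_dist_sub_le x y p
      rw [abs_le] at h6
      exact ⟨⟨⟨⟨subset_closure ⟨h3.1, h1, h2⟩, h3.2.1, by simp only; linarith, by
        simp only; linarith⟩, h4⟩, h3.2.2.2⟩, h3.2.2.1⟩
  have βpos : ∀ q ∈ C, 0 < β q.1 := fun q hq => (dist_pos.2 (Ne.symm hq.2)).trans_le hq.1.1.2
  have m1 := mem x₁ y₁ hx1 hx2 hc1 hlt.le
  obtain ⟨q, hq, hmin'⟩ := hC.exists_isMinOn (f := fun q => dist q.1 q.2 / β q.1) ⟨_, m1⟩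
    (continuous_dist.continuousOn.div (βc.comp continuous_fst).continuousOn
      fun q hq => (βpos q hq).ne')
  obtain ⟨x, y⟩ := q
  have hmin : ∀ u v, (u, v) ∈ C → dist x y / β x ≤ dist u v / β u := fun u v h =>
    isMinOn_iff.1 hmin' (u, v) h
  have hc : Crit F t x y := crit (x, y) hq
  have β0 : 0 < β x := βpos (x, y) hq
  have xK' : x ∈ K' := hq.1.1.1.1
  have xK := sub xK'
  have d0 : 0 < dist x y := dist_pos.2 hc.2.2.1.symm
  have s0 : 0 < dist x y / β x := div_pos d0 β0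
  have s1 : dist x y / β x < 1 := (hmin _ _ m1).trans_lt ((div_lt_one (βpos (x₁, y₁) m1)).2 hlt)
  have s2 : dist x y < β x := (div_lt_one β0).1 s1
  have x1 : R < dist x p := lt_of_le_of_ne xK.2.1 fun h => by
    simp only [β, ← h, div_self hR.ne', Real.one_rpow] at β0
    norm_num at β0
  have r0 : 0 < dist x p := hR.trans x1
  have x2 : dist x p < R' := lt_of_le_of_ne xK.2.2 fun h => by
    by_cases hT : F.PL (x, t) (x - p) = 0
    · obtain ⟨l1, l2⟩ := loc x R' hRR.le le_rfl (by rw [h, sub_self, abs_zero]; linarith)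
      have hT' : F.PL (x, t) (p - x) = 0 := by
        have : F.PL (x, t) (p - x) = -F.PL (x, t) (x - p) := by
          simp only [Mv.PL, ← neg_sub x p, inner_neg_right, neg_smul]; abel
        rw [this, hT, neg_zero]
      have R0 := hR.trans hRR
      have k := slm hF xK.1 (by positivity) (by linarith) l1 l2 hT'
      obtain ⟨z, k1, k2⟩ := mem_closure_iff_nhds.1 xK' _ k
      have k3 := k1 k2.1
      have k4 : ‖p - z‖ < R' := by rw [← dist_eq_norm, dist_comm]; exact k2.2.2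
      have k5 : ‖p - x‖ = R' := by rw [← dist_eq_norm, dist_comm, h]
      have k6 : 1 / (4 * R') * R' = 1 / 4 := by field_simp [(hR.trans hRR).ne']
      simp only [k5, k6] at k3
      nlinarith [norm_nonneg (p - z), sq_nonneg ‖z - x‖]
    · have := hout x y h hT hc
      simp only [β, h] at s2
      linarith
  have h5 := βle x x1.le
  have h6 := abs_dist_sub_le y x p
  rw [dist_comm y x] at h6
  obtain ⟨l1, l2⟩ := loc y (dist x p) x1.le x2.le (by linarith)
  have per := persist hF hc (by positivity) (by positivity) l1 l2 (by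
    rw [← dist_eq_norm, div_mul_eq_mul_div, div_lt_one (by positivity)]; linarith)
  rw [abs_le] at h6
  refine no_touch hF hc (hA x hc.1 (by linarith) (by linarith)).1
    (hA y hc.2.1 (by linarith) (by linarith)).1 (p := p) (a := dist x y / β x * (1 / 8 * R)) hR
    (by rwa [← dist_eq_norm]) g0 g1 (by positivity) (by nlinarith) ?_ ?_
  · rw [← dist_eq_norm, ← dist_eq_norm, mul_assoc]; exact div_mul_cancel₀ _ β0.ne'
  · have o1 : ∀ᶠ q : E × E in 𝓝 (x, y), R < dist q.1 p :=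
      (by fun_prop : Continuous fun q : E × E => dist q.1 p).continuousAt.eventually_const_lt x1
    have o2 : ∀ᶠ q : E × E in 𝓝 (x, y), dist q.1 p < R' :=
      (by fun_prop : Continuous fun q : E × E => dist q.1 p).continuousAt.eventually_lt_const x2
    filter_upwards [per, o1, o2] with q k1 k2 k3 k4 k5
    obtain ⟨z, k6, k7⟩ := k1 k4 k5
    refine le_trans ?_ k7
    rw [← dist_eq_norm, ← dist_eq_norm, mul_assoc]
    change dist x y / β x * β q.1 ≤ _
    rcases le_total (dist q.1 z) (β q.1) with k8 | k8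
    · have := mem _ _ k2.le k3 k6 k8
      exact (le_div_iff₀ (βpos (q.1, z) this)).1 (hmin _ _ this)
    · have : 0 ≤ β q.1 := by positivity
      nlinarith

end Crest.Agent.N250.Min

end
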