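import Crest.Agent.N250.Min.End

/-!
# Row 250 (helper72): punctures and ends from the annulus lemma
-/

set_option autoImplicit false
open MeasureTheory Set Filter Topology Metric
open scoped ContDiff InnerProductSpace
open Crest.GeometryTopology.MCF

noncomputable section

namespace Crest.Agent.N250.Min

variable {F : Mv} {t : ℝ} {x y : E}

theorem at_crit_eq (hF : F.Reg) (h : Crit F t x y) :
    ∃ s : ℝ, x - y = s • F.n (y, t) ∧ |s| = dist x y := by
  refine ⟨⟪F.n (y, t), x - y⟫_ℝ, sub_eq_zero.1 h.2.2.2, ?_⟩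
  have h1 : x - y = ⟪F.n (y, t), x - y⟫_ℝ • F.n (y, t) := sub_eq_zero.1 h.2.2.2
  rw [dist_eq_norm]
  conv_rhs => rw [h1, norm_smul, hF.norm_n (p := (y, t)) h.2.1, mul_one, Real.norm_eq_abs]

/-- reach at the foot point -/
theorem at_crit_foot (hF : F.Reg) (h : Crit F t x y) {ρ : ℝ} (hρ : 0 ≤ ρ)
    (hR : F.Reach (y, t) ρ) : 2 * ρ ≤ dist x y := by
  obtain ⟨s, h1, h2⟩ := at_crit_eq hF h
  have h3 := (reach_iff hF (p := (y, t)) h.2.1 hρ).1 hR x h.1
  have h4 : 0 < dist x y := dist_pos.2 h.2.2.1.symm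
  dsimp only at h3
  rw [← dist_eq_norm, h1, real_inner_smul_left, hF.inner_n (p := (y, t)) h.2.1, mul_one, h2] at h3
  nlinarith

/-- reach at the other point -/
theorem at_crit_far (hF : F.Reg) (h : Crit F t x y) {ρ κ k : ℝ} (hρ : 0 ≤ ρ)
    (hR : F.Reach (x, t) ρ) (hκ : 0 ≤ κ) (hk : κ < k) (hkd : 4 * k * dist x y ≤ 1)
    (hK : IsCompact (F.sl t ∩ closedBall y (2 * dist x y)))
    (hA : ∀ z ∈ F.sl t ∩ closedBall y (2 * dist x y), F.A2 (z, t) ≤ κ ^ 2) :
    ρ ≤ 9 * dist x y := by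
  obtain ⟨s, h1, h2⟩ := at_crit_eq hF h
  have hr := (reach_iff hF (p := (x, t)) h.1 hρ).1 hR
  dsimp only at hr
  set d := dist x y with hd
  have d0 : 0 < d := dist_pos.2 h.2.2.1.symm
  have k0 : 0 < k := hκ.trans_lt hk
  set ν := F.n (x, t) with hν
  set m := F.n (y, t) with hm
  have νν : ⟪ν, ν⟫_ℝ = 1 := hF.inner_n (p := (x, t)) h.1
  have mm : ⟪m, m⟫_ℝ = 1 := hF.inner_n (p := (y, t)) h.2.1
  set c := ⟪m, ν⟫_ℝ with hc
  have hyx : y - x = -s • m := by rw [neg_smul, ← h1, neg_sub]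
  by_cases hc4 : 1 / 4 ≤ |c|
  · have h3 := hr y h.2.1
    rw [← dist_eq_norm, dist_comm, ← hd, hyx, real_inner_smul_left, abs_mul, abs_neg, h2] at h3
    nlinarith [mul_le_mul_of_nonneg_left hc4 (mul_nonneg hρ d0.le)]
  have hc5 : |c| < 1 / 4 := not_le.1 hc4
  set z := d • (ν - c • m) with hz
  have z1 : ⟪m, z⟫_ℝ = 0 := by
    rw [hz, real_inner_smul_right, inner_sub_right, real_inner_smul_right, mm]; ring
  have z2 : ⟪z, ν⟫_ℝ = d * (1 - c ^ 2) := by
    rw [hz, real_inner_smul_left, inner_sub_left, real_inner_smul_left, νν]; ring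
  have z3 : ‖z‖ ≤ d := by
    have : ‖z‖ ^ 2 = d ^ 2 * (1 - c ^ 2) := by
      rw [← real_inner_self_eq_norm_sq]
      conv_lhs => rw [hz, real_inner_smul_right, ← hz, inner_sub_right, real_inner_smul_right,
        real_inner_comm m z, z1, z2]
      ring
    exact (sq_le_sq₀ (norm_nonneg _) d0.le).1
      (by nlinarith [mul_nonneg (sq_nonneg d) (sq_nonneg c)])
  have hsub : closedBall y (2 * ‖z‖) ⊆ closedBall y (2 * d) :=
    closedBall_subset_closedBall (by linarith)
  obtain ⟨w, hw, w1, w2, -, w3⟩ := lift hF h.2.1 z1 hκ hk (by nlinarith)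
    (by
      have : F.sl t ∩ closedBall y (2 * ‖z‖) =
          F.sl t ∩ closedBall y (2 * d) ∩ closedBall y (2 * ‖z‖) := by
        rw [inter_assoc, inter_eq_right.2 hsub]
      rw [this]
      exact hK.inter_right isClosed_closedBall)
    fun u hu => hA u ⟨hu.1, hsub hu.2⟩
  set e := ⟪m, w - y⟫_ℝ with he
  have w4 : w - x = z + (e - s) • m := by
    have : w - y = z + e • m := by rw [← w2, Mv.PL]; simp [he, hm]
    rw [show w - x = w - y + (y - x) by abel, this, hyx, sub_smul, neg_smul]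
    abel
  have w5 : |e| ≤ 3 * d / 4 := by
    refine w3.trans ?_
    have : ‖z‖ ^ 2 ≤ d ^ 2 := pow_le_pow_left₀ (norm_nonneg _) z3 2
    nlinarith [mul_le_mul_of_nonneg_left this k0.le]
  have w6 : d / 2 ≤ |⟪w - x, ν⟫_ℝ| := by
    refine le_trans ?_ (le_abs_self _)
    rw [w4, inner_add_left, z2, real_inner_smul_left, ← hc]
    have h5 : |(e - s) * c| ≤ 7 * d / 4 * (1 / 4) :=
      CS.abs_mul_le ((abs_sub _ _).trans (by linarith)) hc5.le
    have h6 : c ^ 2 ≤ 1 / 16 := by nlinarith [sq_abs c, abs_nonneg c]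
    nlinarith [neg_abs_le ((e - s) * c)]
  have w7 : ‖w - x‖ ≤ 3 * d := by
    have := norm_add_le (w - y) (y - x)
    rw [sub_add_sub_cancel, ← dist_eq_norm y x, dist_comm y x] at this
    linarith
  have h7 := hr w hw
  have h8 : ‖w - x‖ ^ 2 ≤ (3 * d) ^ 2 := pow_le_pow_left₀ (norm_nonneg _) w7 2
  nlinarith [mul_le_mul_of_nonneg_left w6 hρ]

theorem at_pow {s g : ℝ} (hs : 0 < s) (hg : 0 < g) :
    (s / (s / (2 : ℝ) ^ g⁻¹)) ^ g = 2 := by
  rw [div_div_cancel₀ hs.ne', Real.rpow_inv_rpow (by norm_num) hg.ne']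

theorem at_sq_le {u g : ℝ} (hu : 1 ≤ u) (hg : 0 < g) : (u ^ g - 1) ^ 2 ≤ u ^ (2 * g) := by
  have h1 : 1 ≤ u ^ g := Real.one_le_rpow hu hg.le
  rw [mul_comm, Real.rpow_mul (by linarith), Real.rpow_two]
  nlinarith

theorem atomS_of (hAn : AnS) (hD : DecS) (hE : EndS) (hP : ReachPosS) : AtomS := by
  intro S Λ p r₀ hS hr₀ hPr hI
  obtain ⟨c, η, c0, c1, η0, η1, hAn⟩ := hAn
  have h1 : ∀ᶠ s in 𝓝[>] (0 : ℝ), PrS S p s := by
    filter_upwards [Ioo_mem_nhdsGT hr₀] with s hs q hq hd
    refine hPr q hq ⟨⟨by rw [mem_ball, hd]; exact hs.2, fun h => ?_⟩, trivial⟩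
    rw [mem_singleton_iff.1 h, dist_self] at hd
    exact hs.1.ne hd
  have h2 := hD S Λ p _ hS sc_zero h1 (by
    intro κ hκ
    obtain ⟨δ, hδ, h⟩ := exists_pos_setLIntegral_lt_of_measure_lt hI
      (ε := ENNReal.ofReal κ) (by simpa using hκ)
    have h3 : Tendsto (fun s : ℝ => ENNReal.ofReal (Λ * (2 * s) ^ 2)) (𝓝[>] 0) (𝓝 0) := by
      have : Tendsto (fun s : ℝ => Λ * (2 * s) ^ 2) (𝓝 0) (𝓝 (Λ * (2 * 0) ^ 2)) :=
        (by fun_prop : Continuous fun s : ℝ => Λ * (2 * s) ^ 2).tendsto 0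
      simpa using ENNReal.tendsto_ofReal (this.mono_left nhdsWithin_le_nhds)
    filter_upwards [h3.eventually (gt_mem_nhds hδ), Ioo_mem_nhdsGT (half_pos hr₀)] with s h4 hs
    have h5 := h (ball p (2 * s)) (((Measure.restrict_apply_le _ _).trans
      (hS.ar 0 p _ (by linarith [hs.1]))).trans_lt h4)
    rw [Measure.restrict_restrict measurableSet_ball,
      inter_eq_left.2 (ball_subset_ball (by linarith [hs.2]))] at h5
    exact (lintegral_mono_set fun x hx => hx.2).trans h5.le)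
  refine hE S Λ p _ (c / 2 ^ (1 / 4 : ℝ)⁻¹) hS sc_zero (by positivity) h1 h2 ?_
  obtain ⟨u, hu, h3⟩ := (nhdsGT_basis (0 : ℝ)).eventually_iff.1 (h1.and (h2 η η0))
  set R' := min u r₀ / 4 with hR'
  have hm : 0 < min u r₀ := lt_min hu hr₀
  have R0 : 0 < R' := by positivity
  have R1 : 4 * R' ≤ u := by linarith [min_le_left u r₀]
  have R2 : 4 * R' ≤ r₀ := by linarith [min_le_right u r₀]
  obtain ⟨ρ, ρ0, hρ⟩ := hP S hS.reg _ ((closedBall p (2 * R') \ ball p (R' / 2)) ×ˢ {0})
    ((isOpen_ball.sdiff isClosed_singleton).prod isOpen_univ) hPr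
    (((isCompact_closedBall _ _).diff isOpen_ball).prod isCompact_singleton)
    (prod_mono (fun z hz => ⟨closedBall_subset_ball (by linarith) hz.1, fun h => hz.2 (by
      rw [mem_singleton_iff.1 h]; exact mem_ball_self (by linarith))⟩) (subset_univ _))
  have hd : ∀ x y, dist x p = R' → Crit S 0 x y → min (R' / 2) (2 * ρ) ≤ dist x y := by
    intro x y hx h
    by_cases h4 : R' / 2 ≤ dist x y
    · exact (min_le_left _ _).trans h4
    refine (min_le_right _ _).trans (at_crit_foot hS.reg h ρ0.le (hρ _ ⟨h.2.1, ⟨?_, ?_⟩, rfl⟩))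
    · have := dist_triangle y x p
      rw [dist_comm y x] at this
      rw [mem_closedBall]
      linarith
    · have := dist_triangle x y p
      rw [mem_ball]
      linarith
  have T1 : (1 : ℝ) ≤ 2 ^ (1 / 4 : ℝ)⁻¹ := Real.one_le_rpow (by norm_num) (by norm_num)
  have h4 : Tendsto (fun s : ℝ => √(s * R')) (𝓝[>] 0) (𝓝 0) := by
    have : Tendsto (fun s : ℝ => √(s * R')) (𝓝 0) (𝓝 √(0 * R')) :=
      (by fun_prop : Continuous fun s : ℝ => √(s * R')).tendsto 0
    simpa using this.mono_left nhdsWithin_le_nhds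
  filter_upwards [Ioo_mem_nhdsGT R0,
    h4.eventually (gt_mem_nhds (lt_min (half_pos R0) (by positivity : 0 < 2 * ρ)))]
    with s hs h5 x y hx h
  set R := s / 2 ^ (1 / 4 : ℝ)⁻¹ with hR
  have hR0 : 0 < R := div_pos hs.1 (by positivity)
  have hR1 : R ≤ s := div_le_self hs.1.le T1
  have h6 := hAn S 0 p R R' (1 / 4) hS.reg hR0 (hR1.trans_lt hs.2) (by norm_num) (by norm_num)
    (fun q hq hb => (h3 ⟨by linarith [hb.1.1], by linarith [hb.1.2]⟩).1 q hq rfl)
    (fun z hz a b => ⟨hS.min _ hz, (h3 ⟨by linarith, by linarith⟩).2 z hz rfl⟩)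
    (fun x y hx _ h => by
      refine le_trans ?_ (h5.le.trans (hd x y hx h))
      have h7 := at_sq_le (u := R' / R) (g := 1 / 4)
        ((one_le_div hR0).2 (hR1.trans hs.2.le)) (by norm_num)
      rw [show (2 * (1 / 4) : ℝ) = 1 / 2 by norm_num, ← Real.sqrt_eq_rpow] at h7
      have h8 : R * √(R' / R) ≤ √(s * R') := by
        refine Real.le_sqrt_of_sq_le ?_
        rw [mul_pow, Real.sq_sqrt (by positivity)]
        have : R ^ 2 * (R' / R) = R * R' := by field_simp
        rw [this]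
        exact mul_le_mul_of_nonneg_right hR1 R0.le
      have h9 := mul_le_mul_of_nonneg_left h7 hR0.le
      have h10 : 0 ≤ R * ((R' / R) ^ (1 / 4 : ℝ) - 1) ^ 2 := by positivity
      nlinarith)
    x y (by rw [hx]; exact hR1) (by rw [hx]; exact hs.2) h
  rw [hx, hR, at_pow hs.1 (by norm_num)] at h6
  refine le_trans (le_of_eq ?_) h6
  ring

theorem infS_of (hAn : AnS) (hD : DecS) (hE : EndS) : InfS := by
  intro S Λ p r₀ c₀ γ hS hc₀ hγ hPr hI hfr
  obtain ⟨c, η, c0, c1, η0, η1, hAn⟩ := hAn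
  have h1 : ∀ᶠ s in atTop, PrS S p s := by
    filter_upwards [eventually_gt_atTop r₀] with s hs q hq hd
    exact hPr q hq ⟨by rw [mem_compl_iff, mem_closedBall, hd]; exact not_le.2 hs, trivial⟩
  have h2 := hD S Λ p _ hS sc_top h1 (by
    intro κ hκ
    set ν := ((S.mu 0).restrict (closedBall p r₀)ᶜ).withDensity
      fun x => ENNReal.ofReal (S.A2 (x, 0)) with hν
    have h3 := tendsto_measure_iInter_atTop (μ := ν) (s := fun s : ℝ => (closedBall p (s / 2))ᶜ)
      (fun s => measurableSet_closedBall.compl.nullMeasurableSet)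
      (fun a b h => compl_subset_compl.2 (closedBall_subset_closedBall (by linarith)))
      ⟨0, ne_top_of_le_ne_top (by simpa [hν] using hI) (measure_mono (subset_univ _))⟩
    have h4 : ⋂ s : ℝ, (closedBall p (s / 2))ᶜ = ∅ := by
      refine eq_empty_of_forall_notMem fun z hz => mem_iInter.1 hz (2 * dist z p) ?_
      rw [mem_closedBall]
      linarith
    rw [h4, measure_empty] at h3
    filter_upwards [h3.eventually (gt_mem_nhds (ENNReal.ofReal_pos.2 hκ)),
      eventually_ge_atTop (2 * r₀)] with s h5 hs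
    rw [Function.comp_apply, hν, withDensity_apply _ measurableSet_closedBall.compl,
      Measure.restrict_restrict measurableSet_closedBall.compl, inter_eq_left.2
        (compl_subset_compl.2 (closedBall_subset_closedBall (by linarith)))] at h5
    refine le_trans (lintegral_mono_set fun x hx => ?_) h5.le
    exact not_le.2 hx.1)
  set g := min (1 / 2) (γ / 4) with hg
  have g0 : 0 < g := lt_min (by norm_num) (by positivity)
  have g1 : g ≤ 1 / 2 := min_le_left _ _
  have g2 : g ≤ γ / 4 := min_le_right _ _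
  refine hE S Λ p _ (c / 2 ^ g⁻¹) hS sc_top (by positivity) h1 h2 ?_
  obtain ⟨u, h3⟩ := eventually_atTop.1 ((h1.and (h2 η η0)).and (eventually_gt_atTop 0))
  have u0 : 0 < u := (h3 u le_rfl).2
  have T1 : (1 : ℝ) ≤ 2 ^ g⁻¹ := Real.one_le_rpow (by norm_num) (by positivity)
  filter_upwards [eventually_ge_atTop (max (2 * u) 1 * 2 ^ g⁻¹)] with s hs x y hx h
  set R := s / 2 ^ g⁻¹ with hR
  have hR2 : max (2 * u) 1 ≤ R := (le_div_iff₀ (by positivity)).2 hs
  have hR3 : 2 * u ≤ R := (le_max_left _ _).trans hR2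
  have hR4 : 1 ≤ R := (le_max_right _ _).trans hR2
  have hR0 : 0 < R := by linarith
  have s0 : 0 < s := by
    have := mul_pos hR0 (by positivity : (0 : ℝ) < 2 ^ g⁻¹)
    rwa [hR, div_mul_cancel₀ _ (by positivity)] at this
  have hR1 : R ≤ s := div_le_self s0.le T1
  have h4 : ∀ᶠ ρ : ℝ in atTop, 9 * R / c₀ ≤ ρ ^ (γ / 2) :=
    (tendsto_rpow_atTop (half_pos hγ)).eventually_ge_atTop _
  obtain ⟨R', h5, h6, h7⟩ := (hfr.and_eventually (h4.and (eventually_gt_atTop s))).exists
  have R0 : 0 < R' := s0.trans h7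
  have h8 := hAn S 0 p R R' g hS.reg hR0 (hR1.trans_lt h7) g0 g1
    (fun q hq hb => (h3 _ (by linarith [hb.1.1])).1.1 q hq rfl)
    (fun z hz a b => ⟨hS.min _ hz, (h3 _ (by linarith)).1.2 z hz rfl⟩)
    (fun x y hx ht h => by
      have v1 : 1 ≤ R' / R := (one_le_div hR0).2 (hR1.trans h7.le)
      have h9 := mul_le_mul_of_nonneg_left (at_sq_le v1 g0) hR0.le
      have h10 : 0 ≤ R * ((R' / R) ^ g - 1) ^ 2 := by positivity
      by_cases hd : R' / 8 ≤ dist x y
      · have h11 : (R' / R) ^ (2 * g) ≤ R' / R := by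
          simpa using Real.rpow_le_rpow_of_exponent_le v1 (by linarith : 2 * g ≤ 1)
        have h12 := mul_le_mul_of_nonneg_left h11 hR0.le
        rw [mul_div_cancel₀ _ hR0.ne'] at h12
        nlinarith
      have hz : ∀ z ∈ closedBall y (2 * dist x y), R' / 2 ≤ dist z p := fun z hz => by
        have a1 : dist z y ≤ 2 * dist x y := hz
        have a2 := dist_triangle4 x y z p
        rw [dist_comm y z] at a2
        linarith
      have h13 := at_crit_far hS.reg h (by positivity) (h5 x h.1 hx ht) (κ := 1 / (4 * R'))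
        (k := 1 / (2 * R')) (by positivity)
        (one_div_lt_one_div_of_lt (by positivity) (by linarith))
        (by
          rw [show 4 * (1 / (2 * R')) * dist x y = 2 * dist x y / R' by field_simp; ring,
            div_le_one R0]
          linarith)
        (cpt (Ω := closedBall y (2 * dist x y) ×ˢ univ)
          (fun q hq hb => (h3 _ (by linarith [hz _ hb.1])).1.1 q hq rfl)
          (isCompact_closedBall _ _) fun z hz => ⟨hz, trivial⟩)
        (fun z hz' => by
          have a1 := hz z hz'.2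
          refine ((h3 _ (by linarith)).1.2 z hz'.1 rfl).trans
            (pow_le_pow_left₀ (by positivity) ?_ 2)
          rw [div_le_div_iff₀ (by linarith) (by positivity)]
          nlinarith)
      have h14 : (R' / R) ^ (2 * g) ≤ R' ^ (γ / 2) :=
        (Real.rpow_le_rpow (by positivity) (div_le_self R0.le hR4) (by positivity)).trans
          (Real.rpow_le_rpow_of_exponent_le (by linarith) (by linarith))
      have h15 : R' ^ γ = R' ^ (γ / 2) * R' ^ (γ / 2) := by
        rw [← Real.rpow_add R0, add_halves]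
      have h16 : 0 < R' ^ (γ / 2) := by positivity
      rw [div_le_iff₀ hc₀] at h6
      have h17 := mul_le_mul_of_nonneg_left h14 hR0.le
      have h18 := mul_le_mul_of_nonneg_right h6 h16.le
      rw [h15] at h13
      nlinarith)
    x y (by rw [hx]; exact hR1) (by rw [hx]; exact h7) h
  rw [hx, hR, at_pow s0 g0] at h8
  refine le_trans (le_of_eq ?_) h8
  ring

end Crest.Agent.N250.Min

end
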