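import Crest.Agent.N250.Min.Stm2
import Crest.Agent.N250.A.A1

/-!
# Row 250 (helper55): `BlS`, almost flat annuli with linear reach have density at most one
-/

set_option autoImplicit false
open MeasureTheory Set Filter Topology Metric
open scoped ContDiff InnerProductSpace
open Crest.GeometryTopology.MCF

noncomputable section

namespace Crest.Agent.N250.Min.Bl

open Crest.Agent.N250.A

theorem reach_le {F : Mv} {p : ST} (hn : ‖F.n p‖ = 1) {ρ σ : ℝ} (h : F.Reach p ρ) (_h0 : 0 ≤ σ)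
    (h1 : σ ≤ ρ) : F.Reach p σ := by
  intro y hy
  obtain ⟨a, b⟩ := h y hy
  have e : ‖(ρ - σ) • F.n p‖ = ρ - σ := by
    rw [norm_smul, hn, mul_one, Real.norm_of_nonneg (by linarith)]
  constructor
  · have := dist_triangle y (p.1 + σ • F.n p) (p.1 + ρ • F.n p)
    rw [dist_eq_norm (p.1 + σ • F.n p), show p.1 + σ • F.n p - (p.1 + ρ • F.n p) =
      -((ρ - σ) • F.n p) by rw [sub_smul]; abel, norm_neg, e] at this
    linarith
  · have := dist_triangle y (p.1 - σ • F.n p) (p.1 - ρ • F.n p)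
    rw [dist_eq_norm (p.1 - σ • F.n p), show p.1 - σ • F.n p - (p.1 - ρ • F.n p) =
      (ρ - σ) • F.n p by rw [sub_smul]; abel, e] at this
    linarith

theorem A2_eq (F : Mv) (p : ST) :
    F.A2 p = ∑ a, ∑ b, F.DL [a] (F.nu b) p * F.DL [a] (F.nu b) p := by
  simp only [Mv.A2, Finset.sum_apply, Pi.mul_apply]; rfl

/-- the cut-off of an annulus -/
def chi (a K : ℝ) (x : E) : ℝ := max 0 (min 1 (min (2 * ‖x‖ / a - 1) (K + 1 - ‖x‖)))

theorem chi_cont (a K : ℝ) : Continuous (chi a K) := by unfold chi; fun_prop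

theorem chi_nonneg (a K : ℝ) (x : E) : 0 ≤ chi a K x := le_max_left _ _

theorem chi_le (a K : ℝ) (x : E) : chi a K x ≤ 1 := max_le zero_le_one (min_le_left _ _)

theorem chi_one {a K : ℝ} (ha : 0 < a) {x : E} (h1 : a ≤ ‖x‖) (h2 : ‖x‖ ≤ K) : chi a K x = 1 := by
  have : 2 ≤ 2 * ‖x‖ / a := by rw [le_div_iff₀ ha]; linarith
  unfold chi
  rw [min_eq_left (le_min (by linarith) (by linarith)), max_eq_right zero_le_one]

theorem chi_zero {a K : ℝ} (ha : 0 < a) {x : E} (h : x ∉ closedBall (0 : E) (K + 1) \ ball 0 (a / 2)) :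
    chi a K x = 0 := by
  unfold chi
  refine max_eq_left ((min_le_right _ _).trans ?_)
  by_cases h1 : ‖x‖ ≤ K + 1
  · have : ‖x‖ < a / 2 := by
      by_contra h2
      exact h ⟨mem_closedBall_zero_iff.2 h1, fun h3 => h2 (mem_ball_zero_iff.1 h3)⟩
    have : 2 * ‖x‖ / a ≤ 1 := by rw [div_le_one ha]; linarith
    exact (min_le_left _ _).trans (by linarith)
  · exact (min_le_right _ _).trans (by linarith [not_le.1 h1])

/-- the Gaussian area against its part in an annulus -/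
theorem split {Λ e : ℝ} (hΛ : 0 ≤ Λ) (he : 0 < e) : ∃ a K : ℝ, 0 < a ∧ ∀ μ : Measure E,
    (∀ r, 0 < r → μ (ball 0 r) ≤ ENNReal.ofReal (Λ * r ^ 2)) →
    ∫ x, gau 0 1 x ∂μ ≤ ∫ x, chi a K x * gau 0 1 x ∂μ + e := by
  obtain ⟨C, hC, hg⟩ := gau_ar
  have hp := Real.pi_gt_three
  obtain ⟨L, hL0, hL⟩ : ∃ L : ℝ, 0 ≤ L ∧ 2 * Real.exp (-L ^ 2 / 8) * (C * Λ) ≤ e / 3 := by
    refine ⟨8 + 48 * C * Λ / e, by positivity, ?_⟩
    set L := 8 + 48 * C * Λ / e
    have l8 : 8 ≤ L := le_add_of_nonneg_right (by positivity)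
    have a := Real.add_one_le_exp (L ^ 2 / 8)
    have b : 48 * C * Λ ≤ L * e := by
      have : L * e = 8 * e + 48 * C * Λ := by simp only [L]; field_simp
      linarith
    rw [neg_div, Real.exp_neg, mul_assoc, ← div_eq_inv_mul, ← mul_div_assoc,
      div_le_div_iff₀ (Real.exp_pos _) (by norm_num)]
    nlinarith [mul_le_mul_of_nonneg_left a he.le, mul_nonneg (mul_nonneg he.le (by linarith : 0 ≤ L))
      (by linarith : 0 ≤ L - 8)]
  obtain ⟨a, ha, ha'⟩ : ∃ a : ℝ, 0 < a ∧ Λ * a ^ 2 ≤ e / 2 := by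
    refine ⟨min 1 (e / (2 * (Λ + 1))), by positivity, ?_⟩
    set a := min 1 (e / (2 * (Λ + 1)))
    have a0 : 0 < a := by positivity
    have a1 : a ≤ 1 := min_le_left _ _
    have a2 : a * (2 * (Λ + 1)) ≤ e := (le_div_iff₀ (by positivity)).1 (min_le_right _ _)
    nlinarith [mul_nonneg hΛ (mul_nonneg a0.le (by linarith : 0 ≤ 1 - a))]
  refine ⟨a, L, ha, fun μ hμ => ?_⟩
  have g0 : ∀ x, 0 ≤ gau (0 : E) 1 x := fun x => (gau_pos one_pos _ _).le
  have hI : Integrable (gau (0 : E) 1) μ :=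
    ⟨(gau_cont _ _).aestronglyMeasurable, (hasFiniteIntegral_iff_ofReal (ae_of_all _ g0)).2
      ((hg μ Λ 0 1 one_pos hΛ hμ).trans_lt ENNReal.ofReal_lt_top)⟩
  have hJ : Integrable (fun x => chi a L x * gau 0 1 x) μ :=
    hI.mono' ((chi_cont a L).mul (gau_cont _ _)).aestronglyMeasurable (ae_of_all _ fun x => by
      rw [Real.norm_of_nonneg (mul_nonneg (chi_nonneg _ _ _) (g0 x))]
      exact mul_le_of_le_one_left (g0 x) (chi_le _ _ _))
  have J0 : 0 ≤ ∫ x, chi a L x * gau 0 1 x ∂μ :=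
    integral_nonneg fun x => mul_nonneg (chi_nonneg _ _ _) (g0 x)
  have small : ∫⁻ x in ball 0 a, ENNReal.ofReal (gau (0 : E) 1 x) ∂μ ≤ ENNReal.ofReal (e / 2) := by
    have gb : ∀ x, ENNReal.ofReal (gau (0 : E) 1 x) ≤ 1 := fun x =>
      ENNReal.ofReal_le_one.2 ((gau_le one_pos _ _).trans (inv_le_one_of_one_le₀ (by linarith)))
    refine (lintegral_mono gb).trans ?_
    rw [setLIntegral_const, one_mul]
    exact (hμ a ha).trans (ENNReal.ofReal_le_ofReal ha')
  have tail : ∫⁻ x in (ball 0 L)ᶜ, ENNReal.ofReal (gau (0 : E) 1 x) ∂μ ≤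
      ENNReal.ofReal (e / 3) := by
    have k : ∀ x ∈ (ball (0 : E) L)ᶜ, ENNReal.ofReal (gau 0 1 x) ≤
        ENNReal.ofReal (2 * Real.exp (-L ^ 2 / 8)) * ENNReal.ofReal (gau 0 (2 * 1) x) := by
      intro x hx
      rw [← ENNReal.ofReal_mul (by positivity)]
      refine ENNReal.ofReal_le_ofReal (gau_tail one_pos hL0 ?_)
      rw [mem_compl_iff, mem_ball_zero_iff, not_lt] at hx
      simpa using hx
    refine (setLIntegral_mono' measurableSet_ball.compl k).trans ?_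
    refine (setLIntegral_le_lintegral _ _).trans ?_
    rw [lintegral_const_mul' _ _ ENNReal.ofReal_ne_top]
    refine (mul_le_mul_right (hg _ Λ 0 _ (by positivity) hΛ hμ) _).trans ?_
    rw [← ENNReal.ofReal_mul (by positivity)]
    exact ENNReal.ofReal_le_ofReal hL
  have main : ∫⁻ x in ball 0 L \ ball 0 a, ENNReal.ofReal (gau (0 : E) 1 x) ∂μ ≤
      ENNReal.ofReal (∫ x, chi a L x * gau 0 1 x ∂μ) := by
    rw [ofReal_integral_eq_lintegral_ofReal hJ
      (ae_of_all _ fun x => mul_nonneg (chi_nonneg _ _ _) (g0 x))]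
    refine le_trans (setLIntegral_mono' (measurableSet_ball.diff measurableSet_ball) fun x hx => ?_)
      (setLIntegral_le_lintegral _ _)
    rw [chi_one ha (not_lt.1 fun h => hx.2 (mem_ball_zero_iff.2 h)) (mem_ball_zero_iff.1 hx.1).le,
      one_mul]
  have u : (univ : Set E) ⊆ (ball 0 L \ ball 0 a ∪ ball 0 a) ∪ (ball 0 L)ᶜ := fun x _ => by
    by_cases h1 : x ∈ ball (0 : E) L
    · by_cases h2 : x ∈ ball (0 : E) a
      · exact Or.inl (Or.inr h2)
      · exact Or.inl (Or.inl ⟨h1, h2⟩)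
    · exact Or.inr h1
  rw [integral_eq_lintegral_of_nonneg_ae (ae_of_all _ g0) (gau_cont _ _).aestronglyMeasurable]
  refine ENNReal.toReal_le_of_le_ofReal (by positivity) ?_
  rw [← setLIntegral_univ]
  refine (lintegral_mono_set u).trans ((lintegral_union_le _ _ _).trans ?_)
  refine (add_le_add ((lintegral_union_le _ _ _).trans (add_le_add main small)) tail).trans ?_
  rw [← ENNReal.ofReal_add J0 (by positivity), ← ENNReal.ofReal_add (by positivity) (by positivity)]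
  exact ENNReal.ofReal_le_ofReal (by linarith)

end Crest.Agent.N250.Min.Bl

namespace Crest.Agent.N250.Min

open Bl Crest.Agent.N250.A

theorem blS_of (hC : CptS) (hJ : ConvJetS) (hM : ConvMuS) (hR : ConvReachS) (hF : FlS) : BlS := by
  intro α l Fk Λ c hc hc4 h1 h2 ε hε
  by_contra hn
  rw [not_eventually] at hn
  have hne := frequently_iff_neBot.1 hn
  set U : Ultrafilter α := Ultrafilter.of (l ⊓ 𝓟 {k | ¬ (Fk k).Fs 0 0 1 ≤ 1 + ε})
  have hU : (U : Filter α) ≤ l ⊓ 𝓟 {k | ¬ (Fk k).Fs 0 0 1 ≤ 1 + ε} := Ultrafilter.of_le _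
  have hl : (U : Filter α) ≤ l := hU.trans inf_le_left
  have hbad : ∀ᶠ k in (U : Filter α), ¬ (Fk k).Fs 0 0 1 ≤ 1 + ε :=
    (hU.trans inf_le_right) (mem_principal_self _)
  set Ω : Set ST := {(0 : E)}ᶜ ×ˢ univ
  have hΩ : IsOpen Ω := isOpen_compl_singleton.prod isOpen_univ
  have ann : ∀ x : E, x ≠ 0 → ∃ K : ℝ, 1 < K ∧ K⁻¹ < ‖x‖ ∧ ‖x‖ < K := by
    intro x hx
    have x0 := norm_pos_iff.2 hx
    refine ⟨1 + ‖x‖ + ‖x‖⁻¹, by have := inv_pos.2 x0; linarith, ?_,
      by have := inv_pos.2 x0; linarith⟩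
    rw [inv_lt_comm₀ (by positivity) x0]; linarith
  have opn : ∀ K : ℝ, IsOpen {x : E | K⁻¹ < ‖x‖ ∧ ‖x‖ < K} := fun K =>
    (isOpen_lt continuous_const continuous_norm).inter (isOpen_lt continuous_norm continuous_const)
  obtain ⟨F, hm, hsub, hpr, hcv⟩ := hC α U Fk Ω hΩ (by
    intro p hp
    obtain ⟨K, hK, k1, k2⟩ := ann p.1 hp.1
    have K0 : 0 < K⁻¹ := by positivity
    refine ⟨{x : E | K⁻¹ < ‖x‖ ∧ ‖x‖ < K} ×ˢ univ,
      ((opn K).prod isOpen_univ).mem_nhds ⟨⟨k1, k2⟩, trivial⟩, c * K⁻¹, by positivity, ?_⟩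
    filter_upwards [hl h1, hl (h2 K 1 hK one_pos)] with k a b
    refine ⟨a.1, b.1, fun q hq => ?_⟩
    exact reach_le (norm_n_of_reg a.1.1 hq.1) (b.2 q hq.1 hq.2.1.1 hq.2.1.2).1 (by positivity)
      (mul_le_mul_of_nonneg_left hq.2.1.1.le hc.le))
  have flat : ∀ x ∈ F.sl 0, F.A2 (x, 0) = 0 ∧ F.Reach (x, 0) (c / 2 * ‖x‖) := by
    intro x hx
    have hxΩ : (x, (0 : ℝ)) ∈ Ω := hsub hx
    have x0 : 0 < ‖x‖ := norm_pos_iff.2 hxΩ.1
    obtain ⟨K, hK, k1, k2⟩ := ann x hxΩ.1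
    obtain ⟨xk, hxk, hmem⟩ := (hJ α U Fk F Ω hcv).2 (x, 0) hxΩ hx (fun _ => 0) tendsto_const_nhds
    have hpk : Tendsto (fun k => (xk k, (0 : ℝ))) U (𝓝 (x, 0)) := hxk.prodMk_nhds tendsto_const_nhds
    have hin : ∀ᶠ k in (U : Filter α), K⁻¹ < ‖xk k‖ ∧ ‖xk k‖ < K := hxk ((opn K).mem_nhds ⟨k1, k2⟩)
    constructor
    · have jt := ((hJ α U Fk F Ω hcv).1 _ _ hxΩ hpk hmem).2.2
      have lim : Tendsto (fun k => (Fk k).A2 (xk k, 0)) U (𝓝 (F.A2 (x, 0))) := by
        simp only [A2_eq]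
        exact tendsto_finsetSum _ fun a _ => tendsto_finsetSum _ fun b _ =>
          (jt [a] b).mul (jt [a] b)
      refine le_antisymm (le_of_forall_pos_le_add fun η hη => ?_) ?_
      · rw [zero_add]
        refine le_of_tendsto lim ?_
        filter_upwards [hmem, hin, hl (h2 K η hK hη)] with k a b d
        exact (d.2 _ a b.1 b.2).2
      · rw [A2_eq]
        exact Finset.sum_nonneg fun a _ => Finset.sum_nonneg fun b _ => mul_self_nonneg _
    · refine (hR α U Fk F Ω hΩ hcv _ (x, 0) (c / 2 * ‖x‖) (by positivity) hpk hmem ?_).1 ?_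
      · rintro ⟨z, s⟩ ⟨hz, -⟩
        refine ⟨fun h => ?_, trivial⟩
        rw [mem_singleton_iff] at h
        simp only at h hz
        rw [h, mem_closedBall, dist_zero_left] at hz
        nlinarith
      · have : ∀ᶠ k in (U : Filter α), ‖x‖ / 2 < ‖xk k‖ :=
          hxk.norm (lt_mem_nhds (by simp only; linarith))
        filter_upwards [hmem, hin, hl h1, hl (h2 K 1 hK one_pos), this] with k a b d e f
        exact reach_le (norm_n_of_reg d.1.1 a) (e.2 _ a b.1 b.2).1 (by positivity)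
          (by simp only; nlinarith)
  have plane := hF F 0 (c / 2) hm.1 (by positivity)
    (fun p hp hp' => hpr p hp ⟨hp'.1, trivial⟩) (fun h => (hsub h).1 rfl) flat
  have one : ∫⁻ x, ENNReal.ofReal (gau (0 : E) 1 x) ∂F.mu 0 ≤ 1 := by
    unfold Mv.mu
    rcases (F.sl 0).eq_empty_or_nonempty with h0 | ⟨x, hx⟩
    · simp [h0]
    refine (gau_slope (meas_sl hm.1 0) (norm_n_of_reg hm.1 hx) (θ := 0) (by norm_num)
      (fun p hp q hq => ?_) 0 one_pos).trans (by simp)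
    rw [show p - q = (p - x) - (q - x) by abel, inner_sub_left, plane x hx p hp, plane x hx q hq]
    simp
  obtain ⟨a, K, ha, hs⟩ := split (le_max_right Λ 0) (half_pos hε)
  have cv := hM α U Fk F Ω ((closedBall (0 : E) (K + 1) \ ball 0 (a / 2)) ×ˢ Icc (-1 : ℝ) 1) hΩ hcv
    (((isCompact_closedBall _ _).diff isOpen_ball).prod isCompact_Icc)
    (fun q hq => ⟨fun h => hq.1.2 (by rw [mem_singleton_iff.1 h]; exact mem_ball_self (half_pos ha)),
      trivial⟩)
    (fun q => chi a K q.1.1 * gau 0 1 q.1.1 * max 0 (1 - |q.1.2|))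
    ((((chi_cont a K).mul (gau_cont 0 1)).comp (continuous_fst.comp continuous_fst)).mul
      (by fun_prop))
    (fun q hq => by
      by_cases h : q.1.1 ∈ closedBall (0 : E) (K + 1) \ ball 0 (a / 2)
      · have : ¬ |q.1.2| ≤ 1 := fun h' => hq ⟨h, abs_le.1 h'⟩
        rw [max_eq_left (by linarith [not_le.1 this]), mul_zero]
      · rw [chi_zero ha h, zero_mul, zero_mul])
    (fun _ => 0) 0 tendsto_const_nhds
  simp only [abs_zero, sub_zero, max_eq_right zero_le_one, mul_one] at cv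
  have le1 : ∫ x, chi a K x * gau 0 1 x ∂F.mu 0 ≤ 1 := by
    rw [integral_eq_lintegral_of_nonneg_ae
      (ae_of_all _ fun x => mul_nonneg (chi_nonneg _ _ _) (gau_pos one_pos _ _).le)
      ((chi_cont a K).mul (gau_cont 0 1)).aestronglyMeasurable]
    refine ENNReal.toReal_le_of_le_ofReal zero_le_one ?_
    rw [ENNReal.ofReal_one]
    exact le_trans (lintegral_mono fun x => ENNReal.ofReal_le_ofReal
      (mul_le_of_le_one_left (gau_pos one_pos _ _).le (chi_le _ _ _))) one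
  have ev := cv (Iio_mem_nhds (show _ < 1 + ε / 2 by linarith))
  obtain ⟨k, k1, k2, k3⟩ := (hbad.and ((h1.filter_mono hl).and ev)).exists
  refine k1 ((hs _ (ar_mono k2.2 (le_max_left Λ 0) 0 0)).trans ?_)
  have : ∫ x, chi a K x * gau 0 1 x ∂(Fk k).mu 0 < 1 + ε / 2 := k3
  linarith

end Crest.Agent.N250.Min

end
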