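import Crest.Agent.N250.Min.Stm2
import Crest.Agent.N250.A.CS
import Crest.Agent.N250.Tr.Inst

/-!
# Row 250 (helper72): decay of the curvature and the density of separated ends
-/

set_option autoImplicit false
open MeasureTheory Set Filter Topology Metric
open scoped ContDiff InnerProductSpace
open Crest.GeometryTopology.MCF

noncomputable section

namespace Crest.Agent.N250.Min

theorem SM.end_mcf {S : Mv} {Λ : ℝ} (h : SM S Λ) : S.IsMCF :=
  ⟨h.reg, fun p hp => by rw [h.st.V_eq, h.min p hp, neg_zero]⟩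

theorem decS_of (hC : CSS) : DecS := by
  intro S Λ p l hS hl hP hI η hη
  obtain ⟨κ, hκ, hC⟩ := hC Λ (η ^ 2 / 4) (by positivity)
  filter_upwards [hl.pos, hl.ann _ hP 2 one_lt_two, hI κ hκ] with s hs h1 h2 x hx hd
  have h3 : ∀ z ∈ ball x (s / 2), s / 2 < dist z p ∧ dist z p < 2 * s := fun z hz => by
    have h4 : dist z x < s / 2 := hz
    have h5 := dist_triangle z x p
    have h6 := dist_triangle x z p
    rw [dist_comm x z] at h6
    constructor <;> linarith
  have := hC S 0 x (s / 2) (by positivity) hS.end_mcf hS.st hS.ar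
    (fun q hq hb => h1 _ (h3 _ hb.1).1.le (h3 _ hb.1).2.le q hq rfl)
    ((lintegral_mono_set h3).trans h2) x hx (by rw [dist_self]; positivity)
  refine this.trans (le_of_eq ?_)
  field_simp
  norm_num

theorem end_reach_st {S : Mv} (hS : S.Static) {x : E} {s t ρ : ℝ} (h : S.Reach (x, s) ρ) :
    S.Reach (x, t) ρ := by
  intro y hy
  have := h y ((CS.st_mem hS y t s).1 hy)
  simpa only [hS.n_eq x s, hS.n_eq x t] using this

theorem endS_of (hB : BlS) : EndS := by
  intro S Λ p l c hS hl hc hP hA hCr ε hε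
  set c' := min c 1 with hc'
  have hc0 : 0 < c' := lt_min hc one_pos
  have hc1 : c' ≤ 1 := min_le_right _ _
  have hc2 : c' ≤ c := min_le_left _ _
  have hR : ∀ᶠ s in l, ∀ y ∈ S.sl 0, dist y p = s → S.Reach (y, 0) (c' / 8 * s) := by
    filter_upwards [hl.pos, hl.ann _ hP 2 one_lt_two, hl.ann _ (hA 1 one_pos) 2 one_lt_two,
      hl.ann _ hCr 2 one_lt_two] with s hs h1 h2 h3 y hy hd
    have h0 : c' * s ≤ s := by nlinarith
    have h4 : ∀ z, dist z y ≤ 2 * (c' * s / 4) → s / 2 ≤ dist z p ∧ dist z p ≤ 2 * s := by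
      intro z hz
      have h5 := dist_triangle z y p
      have h6 := dist_triangle y z p
      rw [dist_comm y z] at h6
      constructor <;> linarith
    refine crS_holds S 0 y (c' * s / 4) (2 / s) _ hS.reg hy
      (fun q hq hb => h1 _ (h4 _ hb.1).1 (h4 _ hb.1).2 q hq rfl) (by positivity)
      (le_of_eq (by ring)) (by positivity) ?_ (fun z hz hd => ?_) fun x z hx hxz => ?_
    · have : 2 / s * (c' / 8 * s) = c' / 4 := by field_simp; ring
      linarith
    · refine (h2 _ (h4 z hd).1 (h4 z hd).2 z hz rfl).trans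
        (pow_le_pow_left₀ (by positivity) ?_ 2)
      rw [div_le_div_iff₀ (by linarith [(h4 z hd).1]) hs]
      linarith [(h4 z hd).1]
    · have h5 := h4 x (by nlinarith [mul_pos hc0 hs])
      have h6 := h3 _ h5.1 h5.2 x z rfl hxz
      nlinarith [mul_le_mul hc2 h5.1 (by positivity) hc.le, mul_pos hc0 hs]
  have key := hB ℝ l (fun R => S.para (p, 0) R⁻¹) Λ (c' / 8) (by positivity) (by linarith)
    (by
      filter_upwards [hl.pos] with R hR0
      exact ⟨Tr.para_mcf _ (inv_pos.2 hR0) hS.end_mcf, Tr.para_ar _ (inv_pos.2 hR0) hS.ar⟩)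
    (by
      intro K η hK hη
      have hK0 : 0 < K := by linarith
      have hm : 0 < min 1 η := lt_min one_pos hη
      filter_upwards [hl.pos, hl.ann _ hP K hK, hl.ann _ (hA (min 1 η / K) (by positivity)) K hK,
        hl.ann _ hR K hK] with R hR0 h1 h2 h3
      have hd : ∀ x : E, dist (p + R • x) p = R * ‖x‖ := fun x => by
        rw [dist_self_add_left, norm_smul, Real.norm_of_nonneg hR0.le]
      have hb : ∀ x : E, K⁻¹ < ‖x‖ → ‖x‖ < K → R / K ≤ R * ‖x‖ ∧ R * ‖x‖ ≤ K * R := fun x a b =>
        ⟨by rw [div_eq_mul_inv]; exact mul_le_mul_of_nonneg_left a.le hR0.le, by nlinarith⟩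
      have hl0 := inv_pos.2 hR0
      refine ⟨?_, fun q hq a b => ?_⟩
      · have hp : S.Proper {q | R / K ≤ dist q.1 p ∧ dist q.1 p ≤ K * R} :=
          fun q hq hb => h1 _ hb.1 hb.2 q hq rfl
        refine ((Tr.pull_para (p, 0) hl0 S).proper hp).mono_set fun q hq => ⟨trivial, ?_⟩
        simpa only [mem_preimage, Tr.paraS_map, inv_inv, mem_ofPred_eq, hd] using
          hb q.1 hq.1.1 hq.1.2
      · have hq' : p + R • q.1 ∈ S.sl 0 := by
          refine (CS.st_mem hS.st _ (0 + q.2 / R⁻¹ ^ 2) 0).1 ?_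
          simpa only [Mv.para, inv_inv, mem_ofPred_eq] using hq
        obtain ⟨b1, b2⟩ := hb q.1 a b
        constructor
        · rw [Tr.para_reach _ hl0 hq, inv_inv]
          refine end_reach_st hS.st (s := 0) ?_
          convert h3 _ b1 b2 _ hq' (hd _) using 1
          field_simp
        · rw [Tr.para_A2 _ hl0 hS.reg hq, inv_inv, CS.inv_A2 hS.st _ _ 0]
          have h4 := h2 _ b1 b2 _ hq' (hd _)
          have h5 : 0 < ‖q.1‖ := (inv_pos.2 hK0).trans a
          have h6 : 1 ≤ K * ‖q.1‖ := by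
            rw [inv_lt_iff_one_lt_mul₀' hK0] at a
            exact a.le
          refine (mul_le_mul_of_nonneg_left h4 (sq_nonneg R)).trans ?_
          have h7 : R ^ 2 * (min 1 η / K / (R * ‖q.1‖)) ^ 2 = (min 1 η / (K * ‖q.1‖)) ^ 2 := by
            field_simp
          rw [h7]
          refine (pow_le_pow_left₀ (by positivity) (div_le_self hm.le h6) 2).trans ?_
          nlinarith [min_le_left 1 η, min_le_right 1 η])
    ε hε
  filter_upwards [key, hl.pos] with R h hR0
  rw [Tr.para_Fs _ (inv_pos.2 hR0)] at h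
  simpa using h

end Crest.Agent.N250.Min

end
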