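import Crest.Agent.N250.Min.Stm2

/-!
# Row 250 (helper32): flat rigidity `FlS`
-/

set_option autoImplicit false
open MeasureTheory Set Filter Topology Metric
open scoped ContDiff InnerProductSpace
open Crest.GeometryTopology.MCF

noncomputable section

namespace Crest.Agent.N250.Min

namespace FlP

variable {F : Mv} {t : ℝ}

/-- a flat slice contains the small tangent discs -/
theorem disc (hF : F.Reg) (hP : F.Proper ({(0 : E)}ᶜ ×ˢ {t})) (hA : ∀ x ∈ F.sl t, F.A2 (x, t) = 0)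
    {x z : E} (hx : x ∈ F.sl t) (hz : ⟪F.n (x, t), z⟫_ℝ = 0) (hs : 2 * ‖z‖ < ‖x‖) :
    x + z ∈ F.sl t ∧ F.n (x + z, t) = F.n (x, t) := by
  have hK : IsCompact (F.sl t ∩ closedBall x (2 * ‖z‖)) :=
    cpt hP (isCompact_closedBall _ _) fun y hy => ⟨fun e : y = 0 => by
      rw [e, mem_closedBall, dist_zero_left] at hy; linarith, rfl⟩
  have h1 : ∀ k : ℝ, ∃ y, 0 < k → 4 * k * ‖z‖ ≤ 1 → y ∈ F.sl t ∩ closedBall x (2 * ‖z‖) ∧
      ‖y - (x + z)‖ ≤ 3 * k * ‖z‖ ^ 2 * ‖F.n (x, t)‖ ∧ ‖F.n (y, t) - F.n (x, t)‖ ≤ 2 * k * ‖z‖ := fun k => by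
    by_cases h : 0 < k ∧ 4 * k * ‖z‖ ≤ 1
    · obtain ⟨y, y1, y2, y3, y4, y5⟩ := lift hF hx hz le_rfl h.1 h.2 hK fun y hy => by
        rw [hA y hy.1]; norm_num
      refine ⟨y, fun _ _ => ⟨⟨y1, mem_closedBall_iff_norm.2 y2⟩, ?_, y4⟩⟩
      have e : y - (x + z) = ⟪F.n (x, t), y - x⟫_ℝ • F.n (x, t) := by
        rw [← y3, Mv.PL]; abel
      rw [e, norm_smul, Real.norm_eq_abs]
      exact mul_le_mul_of_nonneg_right y5 (norm_nonneg _)
    · exact ⟨0, fun a b => (h ⟨a, b⟩).elim⟩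
  choose y hy using h1
  have e0 : ∀ᶠ k in 𝓝[>] (0 : ℝ), 0 < k ∧ 4 * k * ‖z‖ ≤ 1 := by
    refine Filter.Eventually.and self_mem_nhdsWithin (mem_nhdsWithin_of_mem_nhds ?_)
    exact (by fun_prop : Continuous fun k : ℝ => 4 * k * ‖z‖).continuousAt.eventually_le_const (by simp)
  have e1 := e0.mono fun k hk => hy k hk.1 hk.2
  have z0 : ∀ a b : ℝ, Tendsto (fun k : ℝ => a * k * b) (𝓝[>] 0) (𝓝 0) := fun a b =>
    ((by fun_prop : Continuous fun k : ℝ => a * k * b).tendsto' 0 0 (by simp)).mono_left nhdsWithin_le_nhds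
  have t1 : Tendsto y (𝓝[>] 0) (𝓝 (x + z)) :=
    tendsto_iff_norm_sub_tendsto_zero.2 (squeeze_zero' (Eventually.of_forall fun _ => norm_nonneg _)
      (e1.mono fun k hk => hk.2.1.trans_eq (mul_assoc _ _ _)) (z0 3 _))
  have t2 : Tendsto (fun k => F.n (y k, t)) (𝓝[>] 0) (𝓝 (F.n (x, t))) :=
    tendsto_iff_norm_sub_tendsto_zero.2 (squeeze_zero' (Eventually.of_forall fun _ => norm_nonneg _)
      (e1.mono fun k hk => hk.2.2) (z0 2 _))
  have hm := (hK.isClosed.mem_of_tendsto t1 (e1.mono fun k hk => hk.1)).1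
  exact ⟨hm, tendsto_nhds_unique ((cont_n hF _ hm).tendsto.comp
    (tendsto_nhdsWithin_iff.2 ⟨t1, e1.mono fun k hk => hk.1.1⟩)) t2⟩

/-- a flat slice contains the tangent rays that miss the origin -/
theorem ray (hF : F.Reg) (hP : F.Proper ({(0 : E)}ᶜ ×ˢ {t})) (hA : ∀ x ∈ F.sl t, F.A2 (x, t) = 0)
    {x v : E} (hx : x ∈ F.sl t) (hv : ⟪F.n (x, t), v⟫_ℝ = 0) (h0 : ∀ s : ℝ, 0 ≤ s → x + s • v ≠ 0)
    {s : ℝ} (hs : 0 ≤ s) : x + s • v ∈ F.sl t ∧ F.n (x + s • v, t) = F.n (x, t) := by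
  have st : ∀ a b : ℝ, 2 * ‖(b - a) • v‖ < ‖x + a • v‖ →
      (x + a • v ∈ F.sl t ∧ F.n (x + a • v, t) = F.n (x, t)) →
      (x + b • v ∈ F.sl t ∧ F.n (x + b • v, t) = F.n (x, t)) := fun a b h ha => by
    have := disc hF hP hA ha.1 (z := (b - a) • v) (by rw [ha.2, inner_smul_right, hv, mul_zero]) h
    rwa [ha.2, add_assoc, ← add_smul, add_sub_cancel] at this
  refine isPreconnected_Ici.induction₂' (fun a b : ℝ =>
    (x + a • v ∈ F.sl t ∧ F.n (x + a • v, t) = F.n (x, t)) →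
      (x + b • v ∈ F.sl t ∧ F.n (x + b • v, t) = F.n (x, t))) (fun a ha => ?_)
    (fun _ _ _ _ _ _ h h' => h' ∘ h) (self_mem_Ici (a := (0 : ℝ))) hs (by simpa using hx)
  have p := norm_pos_iff.2 (h0 a ha)
  refine mem_nhdsWithin_of_mem_nhds (Filter.Eventually.and ?_ ?_)
  · exact (ContinuousAt.eventually_lt (f := fun b : ℝ => 2 * ‖(b - a) • v‖) (g := fun _ => ‖x + a • v‖)
      (by fun_prop) (by fun_prop) (by simpa using p)).mono fun b hb => st a b hb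
  · exact (ContinuousAt.eventually_lt (f := fun b : ℝ => 2 * ‖(a - b) • v‖) (g := fun b => ‖x + b • v‖)
      (by fun_prop) (by fun_prop) (by simpa using p)).mono fun b hb => st b a hb

theorem exists_perp (a b : E) : ∃ v : E, v ≠ 0 ∧ ⟪a, v⟫_ℝ = 0 ∧ ⟪b, v⟫_ℝ = 0 := by
  obtain ⟨v, hv, h0⟩ := Submodule.exists_mem_ne_zero_of_ne_bot (LinearMap.ker_ne_bot_of_finrank_lt
    (f := (innerₛₗ ℝ a).prod (innerₛₗ ℝ b)) (by simp))
  exact ⟨v, h0, congrArg Prod.fst hv, congrArg Prod.snd hv⟩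

end FlP

open FlP in
theorem flS_holds : FlS := by
  intro F t c hF hc hP h0 h x hx y hy
  have hA : ∀ x ∈ F.sl t, F.A2 (x, t) = 0 := fun x hx => (h x hx).1
  have key : ∀ v : E, v ≠ 0 → ⟪F.n (x, t), v⟫_ℝ = 0 → ⟪F.n (y, t), v⟫_ℝ = 0 →
      (∀ s : ℝ, 0 ≤ s → x + s • v ≠ 0) → (∀ s : ℝ, 0 ≤ s → y + s • v ≠ 0) →
      ⟪y - x, F.n (x, t)⟫_ℝ = 0 := fun v v0 h1 h2 h3 h4 => by
    by_contra hn
    have d0 := abs_pos.2 hn
    have v1 := norm_pos_iff.2 v0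
    obtain ⟨s, s0, hs⟩ : ∃ s : ℝ, 0 ≤ s ∧
        s * ‖v‖ = ‖x‖ + (‖y - x‖ ^ 2 + 1) / (2 * c * |⟪y - x, F.n (x, t)⟫_ℝ|) :=
      ⟨_ / ‖v‖, by positivity, div_mul_cancel₀ _ v1.ne'⟩
    obtain ⟨a1, a2⟩ := ray hF hP hA hx h1 h3 s0
    have a3 := (reach_iff hF (p := (x + s • v, t)) a1 (by positivity)).1 (h _ a1).2 _
      (ray hF hP hA hy h2 h4 s0).1
    rw [a2, add_sub_add_right_eq_sub] at a3
    have a4 : s * ‖v‖ ≤ ‖x + s • v‖ + ‖x‖ := by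
      rw [← norm_smul_of_nonneg s0]
      simpa only [add_sub_cancel_left] using norm_sub_le (x + s • v) x
    have a5 : (‖y - x‖ ^ 2 + 1) / (2 * c * |⟪y - x, F.n (x, t)⟫_ℝ|) ≤ ‖x + s • v‖ := by linarith
    rw [div_le_iff₀ (by positivity)] at a5
    linarith
  obtain ⟨v, v0, h1, h2⟩ := exists_perp (F.n (x, t)) (F.n (y, t))
  have x0 : x ≠ 0 := fun e => h0 (e ▸ hx)
  have y0 : y ≠ 0 := fun e => h0 (e ▸ hy)
  have two : ∀ {w : E} {a b : ℝ}, 0 ≤ a → 0 ≤ b → w + a • v = 0 → w + b • -v = 0 → w = 0 :=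
    fun {w a b} a0 b0 e1 e2 => by
      have e3 : (a + b) • v = 0 := by
        rw [smul_neg, ← sub_eq_add_neg, sub_eq_zero] at e2
        rw [add_smul, add_comm, ← e2, e1]
      have e4 := (smul_eq_zero.1 e3).resolve_right v0
      rwa [show a = 0 by linarith, zero_smul, add_zero] at e1
  have on : ∀ {w u : E} {a : ℝ}, ⟪F.n (x, t), u⟫_ℝ = 0 → w + a • u = 0 → ⟪w, F.n (x, t)⟫_ℝ = 0 :=
    fun {w u a} hu e => by
      rw [eq_neg_of_add_eq_zero_left e, real_inner_comm, inner_neg_right, inner_smul_right, hu, mul_zero,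
        neg_zero]
  have h1' : ⟪F.n (x, t), -v⟫_ℝ = 0 := by rw [inner_neg_right, h1, neg_zero]
  have h2' : ⟪F.n (y, t), -v⟫_ℝ = 0 := by rw [inner_neg_right, h2, neg_zero]
  by_contra hn
  have k1 := mt (fun k : _ ∧ _ => key v v0 h1 h2 k.1 k.2) hn
  have k2 := mt (fun k : _ ∧ _ => key (-v) (neg_ne_zero.2 v0) h1' h2' k.1 k.2) hn
  simp only [not_and_or, not_forall, not_not, exists_prop] at k1 k2
  rcases k1 with ⟨a, a0, e1⟩ | ⟨a, a0, e1⟩ <;> rcases k2 with ⟨b, b0, e2⟩ | ⟨b, b0, e2⟩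
  · exact x0 (two a0 b0 e1 e2)
  · exact hn (by rw [inner_sub_left, on h1 e1, on h1' e2, sub_zero])
  · exact hn (by rw [inner_sub_left, on h1 e1, on h1' e2, sub_zero])
  · exact y0 (two a0 b0 e1 e2)

end Crest.Agent.N250.Min

end
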