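import Crest.Agent.N250.Min.Stm
import Crest.Agent.N250.Cv.Jet

/-!
# Row 250 (helper95): `SphS`, points of converging surfaces on converging spheres
-/

set_option autoImplicit false
open MeasureTheory Set Filter Topology Metric
open scoped ContDiff InnerProductSpace
open Crest.GeometryTopology.MCF

noncomputable section

namespace Crest.Agent.N250.Min

open Cv Tr

namespace Sph

theorem dir {g u : E} (hg : g ≠ 0) (h : u - ⟪‖g‖⁻¹ • g, u⟫_ℝ • ‖g‖⁻¹ • g ≠ 0) :
    ∃ v : E, ‖v‖ = ‖u‖ ∧ ⟪u, v⟫_ℝ = 0 ∧ 0 < ⟪g, v⟫_ℝ := by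
  have hu : 0 < ‖u‖ := norm_pos_iff.2 (by rintro rfl; simp at h)
  have g0 := norm_pos_iff.2 hg
  set τ := g - (⟪u, g⟫_ℝ / ‖u‖ ^ 2) • u with hτ
  have h1 : ⟪u, τ⟫_ℝ = 0 := by
    rw [hτ, inner_sub_right, inner_smul_right, real_inner_self_eq_norm_sq]; field_simp; ring
  have h2 : ⟪g, τ⟫_ℝ = ‖τ‖ ^ 2 := by
    rw [← real_inner_self_eq_norm_sq]
    conv_rhs => rw [hτ, inner_sub_left, ← hτ, real_inner_smul_left, h1, mul_zero, sub_zero]
  have h3 : 0 < ‖τ‖ := norm_pos_iff.2 fun e => h (by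
    obtain ⟨c, hc⟩ : ∃ c : ℝ, g = c • u := ⟨_, sub_eq_zero.1 e⟩
    have c0 : c ≠ 0 := by rintro rfl; simp at hc; exact hg hc
    have n : ‖g‖ ^ 2 = c ^ 2 * ‖u‖ ^ 2 := by rw [hc, norm_smul, mul_pow, Real.norm_eq_abs, sq_abs]
    have i : ⟪g, u⟫_ℝ = c * ‖u‖ ^ 2 := by rw [hc, real_inner_smul_left, real_inner_self_eq_norm_sq]
    rw [real_inner_smul_left, smul_smul, i]
    conv_lhs => rw [hc, smul_smul, ← hc]
    rw [show ‖g‖⁻¹ * (c * ‖u‖ ^ 2) * ‖g‖⁻¹ * c = 1 by field_simp; linarith, one_smul, sub_self])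
  refine ⟨(‖u‖ / ‖τ‖) • τ, ?_, by rw [inner_smul_right, h1, mul_zero], ?_⟩
  · rw [norm_smul, Real.norm_of_nonneg (by positivity)]; field_simp
  · rw [inner_smul_right, h2]; positivity

/-- great circles on the spheres about `p` -/
def gc (p u v : E) (ρ s : ℝ) : E := p + (ρ / ‖u‖) • (Real.cos s • u + Real.sin s • v)

theorem gc_dist {p u v : E} (hu : 0 < ‖u‖) (hv : ‖v‖ = ‖u‖) (huv : ⟪u, v⟫_ℝ = 0) {ρ : ℝ} (hρ : 0 ≤ ρ) (s : ℝ) :
    dist (gc p u v ρ s) p = ρ := by
  have : ‖Real.cos s • u + Real.sin s • v‖ = ‖u‖ := by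
    rw [← sq_eq_sq₀ (norm_nonneg _) hu.le, norm_add_sq_real, real_inner_smul_left, real_inner_smul_right, huv,
      norm_smul, norm_smul, mul_pow, mul_pow, Real.norm_eq_abs, Real.norm_eq_abs, sq_abs, sq_abs, hv]
    linear_combination ‖u‖ ^ 2 * Real.cos_sq_add_sin_sq s
  rw [gc, dist_eq_norm, add_sub_cancel_left, norm_smul, this, Real.norm_of_nonneg (by positivity)]
  field_simp

theorem gc_cont (p u v : E) : Continuous fun q : ℝ × ℝ => gc p u v q.1 q.2 := by unfold gc; fun_prop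

end Sph

open Sph in
theorem sphS_holds : SphS := by
  intro α l Fk F Ω H x p t tk ρk hΩ hM hPL htk hρ
  obtain ⟨W, φ, φk, hp, h, hk, ht⟩ := H.near _ hΩ hM
  rw [Mv.PL, h.n_eq _ hp hM] at hPL
  have hu : 0 < ‖x - p‖ := norm_pos_iff.2 fun e => hPL (by simp [e])
  obtain ⟨v, hv, huv, hgv⟩ := dir (h.ne _ hp) hPL
  rw [dist_eq_norm] at hρ
  have g0 : gc p (x - p) v ‖x - p‖ 0 = x := by simp [gc, hu.ne']
  obtain ⟨δ, hδ, hW⟩ := Metric.nhds_basis_closedBall.mem_iff.1 (h.isOpen.mem_nhds hp)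
  have hin : ∀ᶠ k in l, ∀ y ∈ closedBall x δ, (y, tk k) ∈ W := by
    filter_upwards [htk.eventually (closedBall_mem_nhds _ hδ)] with k a y hy
    exact hW (by rw [← closedBall_prod_same]; exact ⟨hy, a⟩)
  have hJ : ∀ s, gc p (x - p) v ‖x - p‖ s ∈ closedBall x δ →
      Tendsto (fun k => φk k (gc p (x - p) v (ρk k) s, tk k)) l (𝓝 (φ (gc p (x - p) v ‖x - p‖ s, t))) :=
    fun s hs => (jc_of_tlu h.isOpen h.sm (hk.mono fun _ a => a.sm) ht
      (hW (by rw [← closedBall_prod_same]; exact ⟨hs, mem_closedBall_self hδ.le⟩))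
      ((((gc_cont p (x - p) v).tendsto (_, s)).comp (hρ.prodMk_nhds tendsto_const_nhds)).prodMk_nhds htk)).val
  obtain ⟨xk, h1, h2⟩ := exists_tendsto_of_closed (l := l) (x := x)
    (S := fun k => (closedBall x δ ∩ (fun y => φk k (y, tk k)) ⁻¹' {0}) ∩ sphere p (ρk k)) (by
      filter_upwards [hk, hin] with k a b
      exact ((a.sm.continuousOn.comp (Continuous.prodMk_left _).continuousOn b
        ).preimage_isClosed_of_isClosed isClosed_closedBall isClosed_singleton).inter isClosed_sphere) (by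
      intro ε hε
      have hd : HasDerivAt (fun s : ℝ => φ (gc p (x - p) v ‖x - p‖ s, t)) ⟪gradX φ x t, v⟫_ℝ 0 := by
        have e1 : HasDerivAt (fun s : ℝ => ((gc p (x - p) v ‖x - p‖ s, t) : ST)) (v, 0) 0 := by
          simpa [gc, hu.ne'] using ((((Real.hasDerivAt_cos 0).smul_const (x - p)).add
            ((Real.hasDerivAt_sin 0).smul_const v)).const_add p).prodMk (hasDerivAt_const (0 : ℝ) t)
        have e2 := (loc_diff h hp).hasFDerivAt.comp_hasDerivAt_of_eq (0 : ℝ) e1 (by rw [g0])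
        rwa [fd_sp (loc_diff h hp)] at e2
      have h0 : φ (gc p (x - p) v ‖x - p‖ 0, t) = 0 := by rw [g0]; exact (h.mem _ hp).1 hM
      have hs : ∀ᶠ s in 𝓝[≠] (0 : ℝ), 0 < slope (fun s : ℝ => φ (gc p (x - p) v ‖x - p‖ s, t)) 0 s :=
        (hasDerivAt_iff_tendsto_slope.1 hd).eventually (lt_mem_nhds hgv)
      have hsm : ∀ᶠ q : ℝ × ℝ in 𝓝 (‖x - p‖, 0), dist (gc p (x - p) v q.1 q.2) x < min ε δ := by
        have := (gc_cont p (x - p) v).tendsto (‖x - p‖, 0)
        rw [g0] at this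
        exact this.eventually (ball_mem_nhds _ (lt_min hε hδ))
      obtain ⟨η, hη, hb'⟩ := Metric.nhds_basis_closedBall.eventually_iff.1 hsm
      rw [eventually_nhdsWithin_iff] at hs
      obtain ⟨r, hr, hb⟩ := Metric.nhds_basis_closedBall.eventually_iff.1 (hs.and (closedBall_mem_nhds _ hη))
      have hdist : ∀ ρ ∈ closedBall ‖x - p‖ η, ∀ s ∈ Icc (-r) r, dist (gc p (x - p) v ρ s) x < min ε δ :=
        fun ρ hρ s hs => hb' (x := (ρ, s)) (by
          rw [← closedBall_prod_same]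
          exact ⟨hρ, (hb (by simpa [Real.dist_eq, abs_le] using hs)).2⟩)
      have hball : ∀ ρ ∈ closedBall ‖x - p‖ η, ∀ s ∈ Icc (-r) r, gc p (x - p) v ρ s ∈ closedBall x δ :=
        fun ρ hρ s hs => ((hdist ρ hρ s hs).trans_le (min_le_right _ _)).le
      have hpos : 0 < φ (gc p (x - p) v ‖x - p‖ r, t) := by
        have := (hb (x := r) (by simp [abs_of_pos hr])).1 hr.ne'
        rw [slope_def_field, h0, sub_zero, sub_zero] at this
        exact (div_pos_iff_of_pos_right hr).1 this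
      have hneg : φ (gc p (x - p) v ‖x - p‖ (-r), t) < 0 := by
        have := (hb (x := -r) (by simp [abs_of_pos hr])).1 (neg_ne_zero.2 hr.ne')
        rw [slope_def_field, h0, sub_zero, sub_zero, div_neg, neg_pos] at this
        by_contra hc
        exact absurd this (not_lt.2 (div_nonneg (not_lt.1 hc) hr.le))
      filter_upwards [hk, hin, hρ.eventually (closedBall_mem_nhds _ hη), hρ.eventually (lt_mem_nhds hu),
        (hJ _ (hball _ (mem_closedBall_self hη.le) r ⟨by linarith, le_rfl⟩)).eventually (lt_mem_nhds hpos),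
        (hJ _ (hball _ (mem_closedBall_self hη.le) (-r) ⟨le_rfl, by linarith⟩)).eventually
          (gt_mem_nhds hneg)] with k a b b1 b2 c d
      have hc : ContinuousOn (fun s : ℝ => φk k (gc p (x - p) v (ρk k) s, tk k)) (Icc (-r) r) :=
        a.sm.continuousOn.comp (by unfold gc; fun_prop) fun s hs => b _ (hball _ b1 s hs)
      obtain ⟨s, hs, e⟩ := intermediate_value_Icc (by linarith) hc ⟨d.le, c.le⟩
      exact ⟨_, ⟨⟨hball _ b1 s hs, e⟩, gc_dist hu hv huv b2.le s⟩,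
        (hdist _ b1 s hs).trans_le (min_le_left _ _)⟩)
  refine ⟨xk, h1, ?_⟩
  filter_upwards [h2, hk, hin] with k a b c using ⟨(b.mem _ (c _ a.1.1)).2 a.1.2, a.2⟩

end Crest.Agent.N250.Min

end
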