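import Crest.Agent.N250.T.All
import Crest.Agent.N250.Gr.Sheet
import Crest.Agent.N250.A.CS
import Crest.Agent.N250.Min.An
import Crest.Agent.N250.Min.At
import Crest.Agent.N250.Min.Bl
import Crest.Agent.N250.Min.End
import Crest.Agent.N250.Min.Fl
import Crest.Agent.N250.Min.Sph

/-!
# Row 250 (helper10): the static minimal core, closed forms
-/

set_option autoImplicit false

namespace Crest.Agent.N250.Min

theorem sheetS : SheetS := Gr.sheetS_of reachAS_holds bernS_holds

theorem cptS : CptS := Cp.cptS_of sheetS

theorem csS : CSS := CS.csS_of wMonoS_holds bernS_holds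

theorem endS : EndS :=
  endS_of (blS_of cptS Cv.convJetS_holds convMuS_holds convReachS_holds flS_holds)

theorem atomS : AtomS := atomS_of anS_holds (decS_of csS) endS reachPosS_holds

theorem infS : InfS := infS_of anS_holds (decS_of csS) endS

end Crest.Agent.N250.Min
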