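import Crest.Agent.N250.Min.Stm
import Crest.Agent.N250.MP.Chart
import Crest.Agent.N250.MP.Max
import Crest.Agent.N250.Re.Comm

/-!
# Row 250 (helper10): curves in slices, critical pairs, lifting of tangent vectors
-/

set_option autoImplicit false
open MeasureTheory Set Filter Topology Metric
open scoped ContDiff InnerProductSpace
open Crest.GeometryTopology.MCF

noncomputable section

namespace Crest.Agent.N250.Min

open MP (Aq)

variable {F : Mv} {t : ℝ} {x y : E}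

theorem abs_Aq_le {p : ST} {κ : ℝ} (hκ : 0 ≤ κ) (h : F.A2 p ≤ κ ^ 2) (v w : E) :
    |Aq F p v w| ≤ κ * ‖v‖ * ‖w‖ := by
  have h1 := Finset.sum_mul_sq_le_sq_mul_sq (Finset.univ : Finset (Fin 3 × Fin 3))
    (fun q => F.A q.1 q.2 p) (fun q => v q.1 * w q.2)
  have h2 : ∑ q : Fin 3 × Fin 3, F.A q.1 q.2 p ^ 2 = F.A2 p := by
    simp only [Fintype.sum_prod_type, Mv.A2, Finset.sum_apply, Pi.mul_apply, sq]
  have h3 : ∑ q : Fin 3 × Fin 3, (v q.1 * w q.2) ^ 2 = ‖v‖ ^ 2 * ‖w‖ ^ 2 := by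
    simp only [Fintype.sum_prod_type, EuclideanSpace.real_norm_sq_eq, Finset.sum_mul_sum, mul_pow]
  have h4 : ∑ q : Fin 3 × Fin 3, F.A q.1 q.2 p * (v q.1 * w q.2) = Aq F p v w := by
    simp only [Fintype.sum_prod_type, Aq]
  rw [h2, h3, h4] at h1
  refine abs_le_of_sq_le_sq ?_ (by positivity)
  calc _ ≤ _ := h1
    _ ≤ κ ^ 2 * (‖v‖ ^ 2 * ‖w‖ ^ 2) := by gcongr
    _ = _ := by ring

theorem norm_td_n (hF : F.Reg) {p : ST} (hp : p ∈ F.M) {κ : ℝ} (hκ : 0 ≤ κ) (h : F.A2 p ≤ κ ^ 2)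
    {v : E} (hv : ⟪F.n p, v⟫_ℝ = 0) : ‖F.td F.n p (v, 0)‖ ≤ κ * ‖v‖ := by
  have h1 := MP.td_n hF hp v (F.td F.n p (v, 0))
  rw [Mv.PL_of_perp hv, real_inner_self_eq_norm_sq] at h1
  have h2 := (le_abs_self _).trans (abs_Aq_le hκ h v (F.td F.n p (v, 0)))
  rcases (norm_nonneg (F.td F.n p (v, 0))).eq_or_lt with h3 | h3
  · rw [← h3]; positivity
  · nlinarith

theorem curve (hF : F.Reg) (hx : x ∈ F.sl t) {v : E} (hv : ⟪F.n (x, t), v⟫_ℝ = 0) :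
    ∃ γ γ' : ℝ → E, γ 0 = x ∧ γ' 0 = v ∧
      (∀ᶠ s in 𝓝 (0 : ℝ), γ s ∈ F.sl t ∧ HasDerivAt γ (γ' s) s) ∧
      HasDerivAt γ' (-(Aq F (x, t) v v) • F.n (x, t)) 0 ∧
      HasDerivAt (fun s => F.n (γ s, t)) (F.td F.n (x, t) (v, 0)) 0 := by
  obtain ⟨Ψ, U, hU, h0, hs, e0, hm, d1, d2⟩ := MP.chartS_holds F hF (x, t) hx
  let c : ℝ → ST := fun s => ((0 : E), t) + s • ((v, 0) : ST)
  have hc : ∀ s, HasDerivAt c (v, 0) s := MP.line_deriv _ _
  have c0 : c 0 = (0, t) := by simp [c]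
  have c2 : ∀ s, (c s).2 = t := by simp [c]
  have hcU : ∀ᶠ s in 𝓝 (0 : ℝ), c s ∈ U :=
    (hc 0).continuousAt.preimage_mem_nhds (by rw [c0]; exact hU.mem_nhds h0)
  have hd : ∀ᶠ s in 𝓝 (0 : ℝ), Ψ (c s) ∈ F.sl t ∧
      HasDerivAt (fun s => Ψ (c s)) (fderiv ℝ Ψ (c s) (v, 0)) s := by
    filter_upwards [hcU] with s h
    refine ⟨by have := hm _ h; rwa [c2] at this, ?_⟩
    exact ((hs.contDiffAt (hU.mem_nhds h)).differentiableAt (by simp)).hasFDerivAt.comp_hasDerivAt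
      s (hc s)
  have g0 : Ψ (c 0) = x := by rw [c0]; exact e0
  have g1 : fderiv ℝ Ψ (c 0) (v, 0) = v := by
    rw [c0, d1, Mv.PL_of_perp hv]; simp
  refine ⟨fun s => Ψ (c s), fun s => fderiv ℝ Ψ (c s) (v, 0), g0, g1, hd, ?_, ?_⟩
  · have h3 : DifferentiableAt ℝ (fun q => fderiv ℝ Ψ q (v, 0)) (c 0) := by
      rw [c0]
      exact (((hs.contDiffAt (hU.mem_nhds h0)).fderiv_right (m := 1) (by norm_cast)).differentiableAt
        (by simp)).clm_apply (differentiableAt_const _)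
    have h4 := h3.hasFDerivAt.comp_hasDerivAt 0 (hc 0)
    rw [c0, d2] at h4
    exact h4
  · have h5 : HasDerivAt (fun s => ((Ψ (c s), t) : ST)) (v, 0) 0 := by
      have := hd.self_of_nhds.2.prodMk (hasDerivAt_const (0 : ℝ) t)
      rwa [g1] at this
    have h6 : HasFDerivWithinAt F.n (F.td F.n (x, t)) F.M ((fun s => ((Ψ (c s), t) : ST)) 0) := by
      simp only [g0]; exact (MP.diff_n hF hx).hasFDerivWithinAt
    exact h6.comp_hasDerivAt 0 h5 (hd.mono fun s h => h.1)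

theorem step {W : Type} [NormedAddCommGroup W] [NormedSpace ℝ W] {G : ℝ → W} {l : ℝ → ℝ} {G' : W}
    {l' : ℝ} (hG : HasDerivAt G G' 0) (hl : HasDerivAt l l' 0) (h : ‖G'‖ < l') :
    ∀ᶠ s in 𝓝[>] (0 : ℝ), ‖G s - G 0‖ < l s - l 0 := by
  have h1 := hG.tendsto_slope_zero_right.norm
  have h2 := hl.tendsto_slope_zero_right
  filter_upwards [h1.eventually_lt h2 h, self_mem_nhdsWithin] with s hs (s0 : 0 < s)
  simp only [zero_add, norm_smul, norm_inv, Real.norm_eq_abs, abs_of_pos s0, smul_eq_mul] at hs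
  exact lt_of_mul_lt_mul_left hs (inv_pos.2 s0).le

theorem incr {l : ℝ → ℝ} {l' : ℝ} (hl : HasDerivAt l l' 0) (h : 0 < l') :
    ∀ᶠ s in 𝓝[>] (0 : ℝ), l 0 < l s :=
  (step (hasDerivAt_const (0 : ℝ) (0 : ℝ)) hl (by simpa using h)).mono fun s hs => by
    simp only [sub_self, norm_zero] at hs; linarith

theorem cpt {Ω : Set ST} (hP : F.Proper Ω) {K : Set E} (hK : IsCompact K)
    (h : ∀ x ∈ K, (x, t) ∈ Ω) : IsCompact (F.sl t ∩ K) := by
  have : F.sl t ∩ K = K ∩ (fun x : E => ((x, t) : ST)) ⁻¹' closure F.M :=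
    Set.ext fun x => ⟨fun h1 => ⟨h1.2, subset_closure h1.1⟩, fun h1 => ⟨hP _ h1.2 (h x h1.1), h1.1⟩⟩
  rw [this]
  exact hK.inter_right (isClosed_closure.preimage (by fun_prop))

theorem cont_n (hF : F.Reg) : ContinuousOn (fun x : E => F.n (x, t)) (F.sl t) :=
  hF.sm_n.continuousOn.comp (by fun_prop) fun _ h => h

theorem inner_PL (hF : F.Reg) {p : ST} (hp : p ∈ F.M) (v : E) : ⟪F.n p, F.PL p v⟫_ℝ = 0 :=
  MP.inner_PL hF hp v

theorem inner_PL_self (hF : F.Reg) {p : ST} (hp : p ∈ F.M) (v : E) :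
    ⟪v, F.PL p v⟫_ℝ = ‖F.PL p v‖ ^ 2 := by
  have h : v = F.PL p v + ⟪F.n p, v⟫_ℝ • F.n p := by simp [Mv.PL]
  conv_lhs => enter [2]; rw [h]
  rw [inner_add_left, real_inner_smul_left, inner_PL hF hp, real_inner_self_eq_norm_sq]; ring

/-- no critical points: the position is almost tangent -/
theorem cr0 (hF : F.Reg) {r κ : ℝ} (hκ : 0 ≤ κ) (hK : IsCompact (F.sl t ∩ closedBall x r))
    (hA : ∀ z ∈ F.sl t ∩ closedBall x r, F.A2 (z, t) ≤ κ ^ 2)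
    (hc : ∀ z ∈ F.sl t ∩ closedBall x r, z ≠ x → F.PL (z, t) (x - z) ≠ 0)
    (hy : y ∈ F.sl t ∩ closedBall x r) : |⟪x - y, F.n (y, t)⟫_ℝ| ≤ κ / 2 * ‖x - y‖ ^ 2 := by
  suffices H : ∀ σ : ℝ, |σ| ≤ 1 → σ * ⟪x - y, F.n (y, t)⟫_ℝ ≤ κ / 2 * ‖x - y‖ ^ 2 by
    have h1 := H 1 (by simp)
    have h2 := H (-1) (by simp)
    rw [abs_le]; constructor <;> linarith
  intro σ hσ
  by_contra hn
  push Not at hn
  set m := σ * ⟪x - y, F.n (y, t)⟫_ℝ - κ / 2 * ‖x - y‖ ^ 2 with hm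
  have m0 : 0 < m := by linarith
  set e := m / (2 * (‖x - y‖ ^ 2 + 1)) with he
  have e0 : 0 < e := by positivity
  let q : E → ℝ := fun z => σ * ⟪x - z, F.n (z, t)⟫_ℝ - (κ / 2 + e) * ‖x - z‖ ^ 2
  have hq : ContinuousOn q (F.sl t ∩ closedBall x r) := by
    have := (cont_n (t := t) hF).mono (inter_subset_left (t := closedBall x r))
    exact (continuousOn_const.mul (ContinuousOn.inner (𝕜 := ℝ) (continuousOn_const.sub continuousOn_id) this)).sub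
      (by fun_prop)
  have hB : IsCompact ((F.sl t ∩ closedBall x r) ∩ q ⁻¹' Ici (m / 2)) :=
    hK.of_isClosed_subset (hq.preimage_isClosed_of_isClosed hK.isClosed isClosed_Ici)
      inter_subset_left
  have hyB : y ∈ (F.sl t ∩ closedBall x r) ∩ q ⁻¹' Ici (m / 2) := by
    refine ⟨hy, ?_⟩
    have : e * (‖x - y‖ ^ 2 + 1) = m / 2 := by rw [he]; field_simp
    simp only [mem_preimage, mem_Ici, q]
    nlinarith
  obtain ⟨z, ⟨hz, hzq⟩, hmin⟩ := hB.exists_isMinOn ⟨y, hyB⟩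
    (f := fun z => ‖x - z‖ ^ 2) (by fun_prop)
  have zx : z ≠ x := by
    rintro rfl
    simp only [mem_preimage, mem_Ici, q, sub_self, inner_zero_left, norm_zero] at hzq
    nlinarith
  set T := F.PL (z, t) (x - z) with hT
  have T0 : 0 < ‖T‖ ^ 2 := pow_pos (norm_pos_iff.2 (hc z hz zx)) 2
  have Tn : ⟪F.n (z, t), T⟫_ℝ = 0 := inner_PL hF hz.1 _
  have TT : ⟪x - z, T⟫_ℝ = ‖T‖ ^ 2 := inner_PL_self hF hz.1 _
  obtain ⟨γ, γ', g0, g1, hγ, -, hn'⟩ := curve hF hz.1 Tn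
  have d0 : HasDerivAt (fun s => x - γ s) (-T) 0 := by
    have := hγ.self_of_nhds.2.const_sub x; rwa [g1] at this
  have d1 : HasDerivAt (fun s => ‖x - γ s‖ ^ 2) (-2 * ‖T‖ ^ 2) 0 := by
    refine d0.norm_sq.congr_deriv ?_
    rw [g0, inner_neg_right, TT]; ring
  have d2 : HasDerivAt (fun s => ⟪x - γ s, F.n (γ s, t)⟫_ℝ) (Aq F (z, t) T T) 0 := by
    refine (d0.inner ℝ hn').congr_deriv ?_
    have := MP.td_n hF hz.1 T (x - z)
    rw [Mv.PL_of_perp Tn, ← MP.Aq_PL hF hz.1, ← hT] at this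
    rw [g0, inner_neg_left, real_inner_comm (F.n (z, t)) T, Tn, real_inner_comm, this]; ring
  have hb := abs_Aq_le hκ (hA z hz) T T
  have hb' : |σ * Aq F (z, t) T T| ≤ κ * ‖T‖ ^ 2 := by
    rw [abs_mul]; nlinarith [abs_nonneg σ, abs_nonneg (Aq F (z, t) T T)]
  have i1 := incr ((d2.const_mul σ).sub (d1.const_mul (κ / 2 + e)))
    (by have := neg_abs_le (σ * Aq F (z, t) T T); nlinarith)
  have i2 := incr d1.neg (by linarith)
  obtain ⟨s, h1, h2, h3⟩ := (i1.and (i2.and (nhdsWithin_le_nhds hγ))).exists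
  simp only [Pi.sub_apply, Pi.neg_apply, g0] at h1 h2
  have h4 : ‖x - γ s‖ ≤ ‖x - z‖ := (abs_le_of_sq_le_sq' (by linarith) (norm_nonneg _)).2
  have h5 : γ s ∈ (F.sl t ∩ closedBall x r) ∩ q ⁻¹' Ici (m / 2) := by
    refine ⟨⟨h3.1, ?_⟩, le_trans hzq h1.le⟩
    have := hz.2
    rw [mem_closedBall, dist_comm, dist_eq_norm] at this ⊢
    linarith
  have := hmin h5
  simp only [mem_ofPred_eq] at this
  linarith

theorem reach_iff (hF : F.Reg) {p : ST} (hp : p ∈ F.M) {ρ : ℝ} (hρ : 0 ≤ ρ) :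
    F.Reach p ρ ↔ ∀ y ∈ F.sl p.2, 2 * ρ * |⟪y - p.1, F.n p⟫_ℝ| ≤ ‖y - p.1‖ ^ 2 := by
  refine forall₂_congr fun y _ => ?_
  have h1 : ∀ σ : ℝ, σ ^ 2 = ρ ^ 2 → (ρ ≤ dist y (p.1 + σ • F.n p) ↔
      2 * σ * ⟪y - p.1, F.n p⟫_ℝ ≤ ‖y - p.1‖ ^ 2) := fun σ hσ => by
    rw [dist_eq_norm, ← sub_sub, ← sq_le_sq₀ hρ (norm_nonneg _), norm_sub_sq_real,
      real_inner_smul_right, norm_smul, hF.norm_n hp, mul_one, Real.norm_eq_abs, sq_abs, hσ]
    constructor <;> intro h <;> linarith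
  rw [sub_eq_add_neg p.1, ← neg_smul, h1 ρ rfl, h1 (-ρ) (by ring)]
  rcases abs_cases ⟪y - p.1, F.n p⟫_ℝ with h | h <;> rw [h.1] <;> constructor <;> intro h' <;>
    first | linarith [h'.1, h'.2] | constructor <;> nlinarith [h.2]

theorem crS_holds : CRS := by
  intro F t y r κ ρ hF hy hP hρ hr hκ hκρ hA hc
  refine (reach_iff hF (p := (y, t)) hy hρ.le).2 fun x hx => ?_
  simp only at hx ⊢
  rcases lt_or_ge (dist x y) r with h | h
  · have hs : closedBall x (dist x y) ⊆ closedBall y (2 * r) :=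
      closedBall_subset_closedBall' (by linarith)
    have := cr0 (x := x) (y := y) (r := dist x y) hF hκ
      (cpt hP (isCompact_closedBall _ _) fun z hz => ⟨hs hz, rfl⟩)
      (fun z hz => hA z hz.1 (hs hz.2))
      (fun z hz zx h0 => by
        have := hc x z h ⟨hx, hz.1, zx, h0⟩
        have h2 := hz.2
        rw [mem_closedBall, dist_comm] at h2
        linarith)
      ⟨hy, by rw [mem_closedBall, dist_comm]⟩
    nlinarith [sq_nonneg ‖x - y‖]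
  · have h1 := abs_real_inner_le_norm (x - y) (F.n (y, t))
    rw [hF.norm_n (p := (y, t)) hy, mul_one] at h1
    rw [dist_eq_norm] at h
    nlinarith [abs_nonneg ⟪x - y, F.n (y, t)⟫_ℝ]

theorem hasDerivAt_nrm {g : ℝ → E} {g' : E} (h : HasDerivAt g g' 0) (h0 : g 0 ≠ 0) :
    HasDerivAt (fun s => ‖g s‖) (⟪g 0, g'⟫_ℝ / ‖g 0‖) 0 := by
  have n0 : ‖g 0‖ ≠ 0 := norm_ne_zero_iff.2 h0
  have := h.norm_sq.sqrt (pow_ne_zero 2 n0)
  simp only [Real.sqrt_sq (norm_nonneg _)] at this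
  convert this using 1
  field_simp

/-- every short tangent vector is the projection of a point of the sheet -/
theorem lift (hF : F.Reg) (hx : x ∈ F.sl t) {z : E} (hz : ⟪F.n (x, t), z⟫_ℝ = 0) {κ k : ℝ}
    (hκ : 0 ≤ κ) (hk : κ < k) (hkz : 4 * k * ‖z‖ ≤ 1)
    (hK : IsCompact (F.sl t ∩ closedBall x (2 * ‖z‖)))
    (hA : ∀ y ∈ F.sl t ∩ closedBall x (2 * ‖z‖), F.A2 (y, t) ≤ κ ^ 2) :
    ∃ y ∈ F.sl t, ‖y - x‖ ≤ 2 * ‖z‖ ∧ F.PL (x, t) (y - x) = z ∧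
      ‖F.n (y, t) - F.n (x, t)‖ ≤ 2 * k * ‖z‖ ∧ |⟪F.n (x, t), y - x⟫_ℝ| ≤ 3 * k * ‖z‖ ^ 2 := by
  rcases eq_or_ne z 0 with rfl | z0
  · exact ⟨x, hx, by simp, by simp [Mv.PL], by simp, by simp⟩
  have zp : 0 < ‖z‖ := norm_pos_iff.2 z0
  have k0 : 0 < k := hκ.trans_lt hk
  set ν := F.n (x, t) with hν
  have ν1 : ‖ν‖ = 1 := hF.norm_n (p := (x, t)) hx
  have νν : ⟪ν, ν⟫_ℝ = 1 := hF.inner_n (p := (x, t)) hx
  let g : E → E := fun y => z - (y - x - ⟪ν, y - x⟫_ℝ • ν)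
  let l : E → ℝ := fun y => ‖z‖ - ‖g y‖
  have hl : Continuous l := by simp only [l, g]; fun_prop
  let K := F.sl t ∩ closedBall x (2 * ‖z‖)
  let N := K ∩ {y | ‖y - x‖ ≤ 2 * l y ∧ |⟪ν, y - x⟫_ℝ| ≤ 3 * k * ‖z‖ * l y} ∩
    (fun y => 2 * k * l y - ‖F.n (y, t) - ν‖) ⁻¹' Ici 0
  have hN : IsCompact N := by
    have h1 : IsCompact (K ∩ {y | ‖y - x‖ ≤ 2 * l y ∧ |⟪ν, y - x⟫_ℝ| ≤ 3 * k * ‖z‖ * l y}) :=
      hK.inter_right (IsClosed.and (isClosed_le (by fun_prop) (by fun_prop))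
        (isClosed_le (by fun_prop) (by fun_prop)))
    refine h1.of_isClosed_subset (ContinuousOn.preimage_isClosed_of_isClosed ?_ h1.isClosed
      isClosed_Ici) inter_subset_left
    exact (continuous_const.mul hl).continuousOn.sub
      (((cont_n hF).mono fun y hy => hy.1.1).sub continuousOn_const).norm
  have lx : l x = 0 := by simp [l, g]
  have hxN : x ∈ N := ⟨⟨⟨hx, mem_closedBall_self (by positivity)⟩, by simp [lx]⟩, by simp [lx, hν]⟩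
  obtain ⟨y, ⟨⟨hy, y1, y2⟩, y3⟩, hmax⟩ := hN.exists_isMaxOn ⟨x, hxN⟩ hl.continuousOn
  simp only [mem_preimage, mem_Ici, sub_nonneg] at y3
  have lz : ∀ y, l y ≤ ‖z‖ := fun y => by simp [l]
  have y4 : ‖F.n (y, t) - ν‖ ≤ 2 * k * ‖z‖ := y3.trans (by gcongr; exact lz y)
  by_cases hg : g y = 0
  · have ly : l y = ‖z‖ := by simp [l, hg]
    rw [ly] at y1 y2
    exact ⟨y, hy.1, y1, (sub_eq_zero.1 hg).symm, y4, by linarith⟩
  exfalso
  have gp : 0 < ‖g y‖ := norm_pos_iff.2 hg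
  set n := F.n (y, t) with hn
  have n1 : ‖n‖ = 1 := hF.norm_n (p := (y, t)) hy.1
  have gν : ⟪ν, g y⟫_ℝ = 0 := by
    simp only [g, inner_sub_right ν z, inner_sub_right ν (y - x), real_inner_smul_right, νν, hz]
    ring
  have c1 : 7 / 8 ≤ ⟪n, ν⟫_ℝ := by
    have := norm_sub_sq_real n ν
    rw [n1, ν1] at this
    have h2 : ‖n - ν‖ ≤ 1 / 2 := by linarith
    nlinarith [norm_nonneg (n - ν)]
  have c2 : |⟪n, g y⟫_ℝ| ≤ 2 * k * ‖z‖ * ‖g y‖ := by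
    have : ⟪n, g y⟫_ℝ = ⟪n - ν, g y⟫_ℝ := by rw [inner_sub_left, gν, sub_zero]
    rw [this]
    exact (abs_real_inner_le_norm _ _).trans (by gcongr)
  set a := ⟪n, g y⟫_ℝ / ⟪n, ν⟫_ℝ with ha
  have kz : 0 < k * ‖z‖ * ‖g y‖ := by positivity
  have a1 : |a| ≤ 16 / 7 * (k * ‖z‖ * ‖g y‖) := by
    rw [ha, abs_div, abs_of_pos (show 0 < ⟪n, ν⟫_ℝ by linarith), div_le_iff₀ (by linarith)]
    nlinarith
  set v := g y - a • ν with hv
  have vn : ⟪n, v⟫_ℝ = 0 := by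
    rw [hv, inner_sub_right, real_inner_smul_right, ha, div_mul_cancel₀ _ (by linarith), sub_self]
  have v1 : ‖v‖ < 2 * ‖g y‖ := by
    have := norm_sub_le (g y) (a • ν)
    rw [norm_smul, ν1, Real.norm_eq_abs] at this
    nlinarith
  have vν : ⟪ν, v⟫_ℝ = -a := by rw [hv, inner_sub_right, real_inner_smul_right, νν, gν]; ring
  obtain ⟨γ, γ', g0, g1, hγ, -, hn'⟩ := curve hF hy.1 vn
  have d0 : HasDerivAt γ v 0 := by have := hγ.self_of_nhds.2; rwa [g1] at this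
  have d1 : HasDerivAt (fun s => ⟪ν, γ s - x⟫_ℝ) (-a) 0 := by
    refine ((hasDerivAt_const (0 : ℝ) ν).inner ℝ (d0.sub_const x)).congr_deriv ?_
    rw [vν]; simp
  have d2 : HasDerivAt (fun s => g (γ s)) (-g y) 0 := by
    refine (((d0.sub_const x).sub (d1.smul_const ν)).const_sub z).congr_deriv ?_
    rw [hv]; simp
  have d3 : HasDerivAt (fun s => l (γ s)) ‖g y‖ 0 := by
    refine ((hasDerivAt_nrm d2 (by rwa [g0])).const_sub ‖z‖).congr_deriv ?_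
    rw [g0, inner_neg_right, real_inner_self_eq_norm_sq]; field_simp
  have s1 := step d0 (d3.const_mul 2) v1
  have s2 := step d1 (d3.const_mul (3 * k * ‖z‖)) (by rw [norm_neg, Real.norm_eq_abs]; linarith)
  have s3 := step hn' (d3.const_mul (2 * k))
    ((norm_td_n hF hy.1 hκ (hA y hy) vn).trans_lt (by nlinarith [norm_nonneg v]))
  obtain ⟨s, h1, h2, h3, h4⟩ := (s1.and (s2.and (s3.and (nhdsWithin_le_nhds hγ)))).exists
  simp only [g0] at h1 h2 h3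
  have e1 : ‖γ s - x‖ ≤ 2 * l (γ s) := by
    have := norm_sub_le_norm_sub_add_norm_sub (γ s) y x; linarith
  have h5 : γ s ∈ N := by
    refine ⟨⟨⟨h4.1, ?_⟩, e1, ?_⟩, ?_⟩
    · rw [mem_closedBall, dist_eq_norm]; linarith [lz (γ s)]
    · have := abs_sub_abs_le_abs_sub ⟪ν, γ s - x⟫_ℝ ⟪ν, y - x⟫_ℝ
      rw [Real.norm_eq_abs] at h2; linarith
    · have := norm_sub_le_norm_sub_add_norm_sub (F.n (γ s, t)) n ν
      simp only [mem_preimage, mem_Ici]; linarith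
  have := hmax h5
  simp only [mem_ofPred_eq] at this
  linarith [norm_nonneg (γ s - y)]

end Crest.Agent.N250.Min

end
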