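import Crest.Agent.N250.Min.Crv

/-!
# Row 250 (helper10): the static minimal core, inner leaves
-/

set_option autoImplicit false
open MeasureTheory Set Filter Topology Metric
open scoped ContDiff InnerProductSpace
open Crest.GeometryTopology.MCF

noncomputable section

namespace Crest.Agent.N250.Min

/-- flat rigidity: flat, proper off the origin, linearly growing reach: one plane -/
def FlS : Prop := ∀ (F : Mv) (t c : ℝ), F.Reg → 0 < c → F.Proper ({(0 : E)}ᶜ ×ˢ {t}) →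
  (0 : E) ∉ F.sl t → (∀ x ∈ F.sl t, F.A2 (x, t) = 0 ∧ F.Reach (x, t) (c * ‖x‖)) →
  ∀ x ∈ F.sl t, ∀ y ∈ F.sl t, ⟪y - x, F.n (x, t)⟫_ℝ = 0

/-- blow-up: almost flat with linearly growing reach on larger and larger annuli -/
def BlS : Prop := ∀ (α : Type) (l : Filter α) (Fk : α → Mv) (Λ c : ℝ), 0 < c → c ≤ 1 / 4 →
  (∀ᶠ k in l, (Fk k).IsMCF ∧ (Fk k).AR Λ) →
  (∀ K η : ℝ, 1 < K → 0 < η → ∀ᶠ k in l,
    (Fk k).Proper ({x : E | K⁻¹ < ‖x‖ ∧ ‖x‖ < K} ×ˢ univ) ∧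
    ∀ q ∈ (Fk k).M, K⁻¹ < ‖q.1‖ → ‖q.1‖ < K → (Fk k).Reach q (c * ‖q.1‖) ∧ (Fk k).A2 q ≤ η) →
  ∀ ε, 0 < ε → ∀ᶠ k in l, (Fk k).Fs 0 0 1 ≤ 1 + ε

/-- the annulus lemma -/
def AnS : Prop := ∃ c η : ℝ, 0 < c ∧ c ≤ 1 / 8 ∧ 0 < η ∧ η ≤ 1 / 8 ∧
  ∀ (F : Mv) (t : ℝ) (p : E) (R R' g : ℝ), F.Reg → 0 < R → R < R' → 0 < g → g ≤ 1 / 2 →
  F.Proper ({x : E | R / 2 ≤ dist x p ∧ dist x p ≤ 2 * R'} ×ˢ {t}) →
  (∀ x ∈ F.sl t, R / 2 ≤ dist x p → dist x p ≤ 2 * R' →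
    F.H (x, t) = 0 ∧ F.A2 (x, t) ≤ (η / dist x p) ^ 2) →
  (∀ x y, dist x p = R' → F.PL (x, t) (x - p) ≠ 0 → Crit F t x y →
    c * R * ((R' / R) ^ g - 1) ^ 2 ≤ dist x y) →
  ∀ x y, R ≤ dist x p → dist x p < R' → Crit F t x y →
    c * R * ((dist x p / R) ^ g - 1) ^ 2 ≤ dist x y

/-- scale invariant filters on the radii (`𝓝[>] 0` and `atTop`) -/
structure Sc (l : Filter ℝ) : Prop where
  pos : ∀ᶠ R in l, 0 < R
  ann : ∀ P : ℝ → Prop, (∀ᶠ s in l, P s) → ∀ K, 1 < K →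
    ∀ᶠ R in l, ∀ s, R / K ≤ s → s ≤ K * R → P s

theorem sc_zero : Sc (𝓝[>] 0) := by
  refine ⟨self_mem_nhdsWithin, fun P hP K hK => ?_⟩
  obtain ⟨u, hu, h⟩ := (nhdsGT_basis (0 : ℝ)).eventually_iff.1 hP
  have K0 : 0 < K := by linarith
  filter_upwards [Ioo_mem_nhdsGT (div_pos hu K0)] with R hR s h1 h2
  refine h ⟨(div_pos hR.1 K0).trans_le h1, h2.trans_lt ?_⟩
  rw [mul_comm]; exact (lt_div_iff₀ K0).1 hR.2

theorem sc_top : Sc atTop := by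
  refine ⟨eventually_gt_atTop 0, fun P hP K hK => ?_⟩
  obtain ⟨u, h⟩ := eventually_atTop.1 hP
  have K0 : 0 < K := by linarith
  filter_upwards [eventually_ge_atTop (u * K)] with R hR s h1 _
  exact h s (((le_div_iff₀ K0).2 hR).trans h1)

/-- proper along the spheres of radius `s` about `p` -/
def PrS (S : Mv) (p : E) (s : ℝ) : Prop := ∀ q ∈ closure S.M, dist q.1 p = s → q ∈ S.M

/-- small total curvature on annuli gives scale invariant decay -/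
def DecS : Prop := ∀ (S : Mv) (Λ : ℝ) (p : E) (l : Filter ℝ), SM S Λ → Sc l →
  (∀ᶠ s in l, PrS S p s) →
  (∀ κ, 0 < κ → ∀ᶠ s in l, ∫⁻ x in {x | s / 2 < dist x p ∧ dist x p < 2 * s},
    ENNReal.ofReal (S.A2 (x, 0)) ∂S.mu 0 ≤ ENNReal.ofReal κ) →
  ∀ η, 0 < η → ∀ᶠ s in l, ∀ x ∈ S.sl 0, dist x p = s → S.A2 (x, 0) ≤ (η / s) ^ 2

/-- decay and linear separation give density at most one -/
def EndS : Prop := ∀ (S : Mv) (Λ : ℝ) (p : E) (l : Filter ℝ) (c : ℝ), SM S Λ → Sc l → 0 < c →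
  (∀ᶠ s in l, PrS S p s) →
  (∀ η, 0 < η → ∀ᶠ s in l, ∀ x ∈ S.sl 0, dist x p = s → S.A2 (x, 0) ≤ (η / s) ^ 2) →
  (∀ᶠ s in l, ∀ x y, dist x p = s → Crit S 0 x y → c * s ≤ dist x y) →
  ∀ ε, 0 < ε → ∀ᶠ R in l, S.Fs 0 p (R ^ 2) ≤ 1 + ε

end Crest.Agent.N250.Min

end
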